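import Vale.Agent.P219.CH.Full.Mono.Growth

/-!
P219, the monotonicity module: `GrowthStmt`.
-/

namespace Vale.Agent.P219.CH.Full

theorem growthStmt : GrowthStmt := fun _ _ _ Γ _ hn hG _ D =>
  let ⟨C, _, hC⟩ := Mono.growth (le_trans one_le_two hn) hG.metric D Γ
  ⟨C, hC⟩

end Vale.Agent.P219.CH.Full
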