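import Vale.Agent.P219.CH.Full.Mono.Limit
import Vale.Agent.P219.CH.Full.Model

/-!
P219, the monotonicity module: `KernelStmt` from `RadIntStmt`.
-/

namespace Vale.Agent.P219.CH.Full

open MeasureTheory Filter Topology Set

noncomputable section

namespace Mono

variable {n : ℕ}

theorem rad_nonneg' {ρ : ℝ} (hρ : (0 : ℝ) ≤ ρ) {d : ℝ} (hd : 0 ≤ d) : 0 ≤ rad n ρ d :=
  mul_nonneg hd (intervalIntegral.integral_nonneg hρ fun u hu =>
    div_nonneg (pow_nonneg hu.1 _) (by positivity))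

theorem integral_wst {m : ℕ} (hm : 1 ≤ m) : ∫ y, wst m y = sphA (m + 1) / 2 ^ m := by
  rw [← constStmt m hm, eq_div_iff (by positivity), ← integral_mul_const]
  refine integral_congr_ae (ae_of_all _ fun y => ?_)
  simp only [wst, ← mul_pow]
  congr 1
  ring

theorem integrable_wst {m : ℕ} (hm : 1 ≤ m) : Integrable (wst m) := by
  refine Integrable.of_integral_ne_zero ?_
  rw [integral_wst hm]
  have : 0 < sphA (m + 1) := mul_pos (by positivity) (Core.Mini.omega_pos _)
  positivity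

end Mono

theorem kernelStmt_of (hR : RadIntStmt) : KernelStmt := by
  intro n G e Γ h₀ hn hG hC D g hg hgs hg0
  filter_upwards [D.dens] with p hp ρ hρ
  have hn2 : 2 ≤ n := by omega
  have hint := hR n G e Γ h₀ hn hG hC D.toVarifold p.1 ρ hρ
    (fun q => h₀ * g q.1 + Real.sqrt (tgsq G g q)) (tsupport g) hgs
    (Mono.continuous_src hG.metric hg) fun q hq => Mono.src_eq_zero hq
  have hh : 0 ≤ h₀ := (abs_nonneg _).trans (D.h_le p.1)
  have h1 : 0 ≤ Mono.kint D.toVarifold Γ p.1 g ρ :=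
    integral_nonneg fun q => mul_nonneg (Mono.kern_nonneg n hρ _) (hg0 _)
  have h2 : 0 ≤ ∫ q, rad n ρ (Γ.dist p.1 q.1) * (h₀ * g q.1 + Real.sqrt (tgsq G g q)) ∂D.μ :=
    integral_nonneg fun q => mul_nonneg (Mono.rad_nonneg' hρ.le (Real.sqrt_nonneg _))
      (add_nonneg (mul_nonneg hh (hg0 _)) (Real.sqrt_nonneg _))
  have h := Mono.wst_le_of_kint hn2 hG.metric D.toVarifold p.1 hg hgs hg0
    (Mono.integrable_wst (by omega)) hp (B := Mono.kint D.toVarifold Γ p.1 g ρ +
      ∫ q, rad n ρ (Γ.dist p.1 q.1) * (h₀ * g q.1 + Real.sqrt (tgsq G g q)) ∂D.μ) (by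
        filter_upwards [Ioc_mem_nhdsGT hρ] with ε hε
        exact Mono.kint_le hn2 hG.metric D.toVarifold p.1 hg hgs hg0 hε.1 hε.2 hint)
    (add_nonneg h1 h2)
  rw [Mono.integral_wst (by omega), show n - 1 + 1 = n by omega] at h
  exact h

end

end Vale.Agent.P219.CH.Full
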