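import Vale.Agent.P219.CH.Full.Mono.Growth

/-!
P219, the monotonicity module: the potential `rad` is measurable, decays like `d^(1-m)` and
`ρ^m d^(1-2m)`, and has row sums of order `ρ` against a measure with growth of order `m`.
-/

namespace Vale.Agent.P219.CH.Full

open MeasureTheory Filter Topology Set
open scoped ContDiff RealInnerProductSpace ENNReal

noncomputable section

namespace Mono

variable {n : ℕ} {G : Coeff n} {Γ : Geo G} {h₀ : ℝ}

theorem rad_nonneg {ρ d : ℝ} (hρ : 0 ≤ ρ) (hd : 0 ≤ d) : 0 ≤ rad n ρ d :=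
  mul_nonneg hd (intervalIntegral.integral_nonneg hρ fun r hr => by
    have := hr.1
    positivity)

theorem rad_zero (ρ : ℝ) : rad n ρ 0 = 0 := by simp [rad]

theorem continuous_radFun {d : ℝ} (hd : 0 < d) :
    Continuous fun r : ℝ => r ^ (n - 2) / (r ^ 2 + d ^ 2) ^ (n - 1) :=
  (continuous_pow _).div (((continuous_pow 2).add continuous_const).pow _) fun r => by positivity

theorem rad_le_far (hn : 3 ≤ n) {ρ d : ℝ} (hρ : 0 ≤ ρ) (hd : 0 < d) :
    rad n ρ d ≤ ρ ^ (n - 1) / d ^ (2 * n - 3) := by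
  have h1 : (∫ r in (0 : ℝ)..ρ, r ^ (n - 2) / (r ^ 2 + d ^ 2) ^ (n - 1)) ≤
      ∫ r in (0 : ℝ)..ρ, r ^ (n - 2) / (d ^ 2) ^ (n - 1) := by
    refine intervalIntegral.integral_mono_on hρ ((continuous_radFun hd).intervalIntegrable _ _)
      (((continuous_pow _).div_const _).intervalIntegrable _ _) fun r hr => ?_
    have := hr.1
    gcongr
    nlinarith
  rw [intervalIntegral.integral_div, integral_pow, show n - 2 + 1 = n - 1 by omega,
    zero_pow (by omega), sub_zero] at h1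
  have h2 : ρ ^ (n - 1) / (((n - 2 : ℕ) : ℝ) + 1) ≤ ρ ^ (n - 1) :=
    div_le_self (by positivity) (by linarith [(Nat.cast_nonneg (n - 2) : (0 : ℝ) ≤ _)])
  calc rad n ρ d ≤ d * (ρ ^ (n - 1) / (d ^ 2) ^ (n - 1)) := by
        refine mul_le_mul_of_nonneg_left (h1.trans ?_) hd.le
        gcongr
    _ = _ := by
        rw [← pow_mul, show 2 * (n - 1) = 2 * n - 3 + 1 by omega, pow_succ]
        field_simp

theorem rad_le_near (hn : 3 ≤ n) {ρ d : ℝ} (hρ : 0 ≤ ρ) (hd : 0 < d) :
    rad n ρ d ≤ 2 * (1 / d) ^ (n - 2) := by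
  rcases le_or_gt ρ d with h | h
  · refine (rad_le_far hn hρ hd).trans ?_
    have h1 : ρ ^ (n - 1) / d ^ (2 * n - 3) ≤ d ^ (n - 1) / d ^ (2 * n - 3) := by gcongr
    refine h1.trans (le_of_eq_of_le ?_ (le_mul_of_one_le_left (by positivity) one_le_two))
    rw [show 2 * n - 3 = (n - 1) + (n - 2) by omega, pow_add, one_div_pow]
    field_simp
  have hi := fun a b : ℝ => (continuous_radFun (n := n) hd).intervalIntegrable
    (μ := volume) a b
  have hA : rad n d d ≤ (1 / d) ^ (n - 2) := by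
    refine (rad_le_far hn hd.le hd).trans (le_of_eq ?_)
    rw [show 2 * n - 3 = (n - 1) + (n - 2) by omega, pow_add, one_div_pow]
    field_simp
  have hB : (∫ r in d..ρ, r ^ (n - 2) / (r ^ 2 + d ^ 2) ^ (n - 1)) ≤ 1 / d ^ (n - 1) := by
    have hne : ∀ r ∈ uIcc d ρ, r ≠ 0 := fun r hr =>
      (hd.trans_le (by rw [uIcc_of_le h.le] at hr; exact hr.1)).ne'
    have hm : (1 : ℝ) ≤ ((n - 1 : ℕ) : ℝ) := by exact_mod_cast (by omega : 1 ≤ n - 1)
    have hder : ∀ r ∈ uIcc d ρ, HasDerivAt (fun r : ℝ => -(r ^ (n - 1))⁻¹)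
        (((n - 1 : ℕ) : ℝ) * r ^ (n - 2) / (r ^ (n - 1)) ^ 2) r := fun r hr => by
      refine ((hasDerivAt_pow (n - 1) r).inv (pow_ne_zero _ (hne r hr))).neg.congr_deriv ?_
      rw [show n - 1 - 1 = n - 2 by omega]
      ring
    have hcont : ContinuousOn
        (fun r : ℝ => ((n - 1 : ℕ) : ℝ) * r ^ (n - 2) / (r ^ (n - 1)) ^ 2) (uIcc d ρ) :=
      (continuous_const.mul (continuous_pow _)).continuousOn.div
        (((continuous_pow _).pow 2).continuousOn) fun r hr =>
          pow_ne_zero _ (pow_ne_zero _ (hne r hr))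
    have h2 := intervalIntegral.integral_eq_sub_of_hasDerivAt hder hcont.intervalIntegrable
    refine (intervalIntegral.integral_mono_on h.le (hi d ρ) hcont.intervalIntegrable
      fun r hr => ?_).trans (h2.le.trans ?_)
    · have hr0 : 0 < r := hd.trans_le hr.1
      calc r ^ (n - 2) / (r ^ 2 + d ^ 2) ^ (n - 1) ≤ r ^ (n - 2) / (r ^ 2) ^ (n - 1) := by
            gcongr; exact le_add_of_nonneg_right (sq_nonneg d)
        _ = 1 * r ^ (n - 2) / (r ^ (n - 1)) ^ 2 := by rw [one_mul, ← pow_mul, ← pow_mul, mul_comm]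
        _ ≤ _ := by gcongr
    · have : 0 ≤ (ρ ^ (n - 1))⁻¹ := by positivity
      rw [one_div]
      linarith
  have hsplit : rad n ρ d = rad n d d +
      d * ∫ r in d..ρ, r ^ (n - 2) / (r ^ 2 + d ^ 2) ^ (n - 1) := by
    simp only [rad]
    rw [← mul_add, intervalIntegral.integral_add_adjacent_intervals (hi 0 d) (hi d ρ)]
  rw [hsplit, two_mul]
  refine add_le_add hA ((mul_le_mul_of_nonneg_left hB hd.le).trans (le_of_eq ?_))
  rw [show n - 1 = n - 2 + 1 by omega, pow_succ, one_div_pow]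
  field_simp

theorem measurable_rad {ρ : ℝ} (hρ : 0 ≤ ρ) : Measurable (rad n ρ) := by
  have h : StronglyMeasurable fun d : ℝ =>
      ∫ r in Ioc (0 : ℝ) ρ, r ^ (n - 2) / (r ^ 2 + d ^ 2) ^ (n - 1) :=
    StronglyMeasurable.integral_prod_right' (ν := volume.restrict (Ioc (0 : ℝ) ρ))
      (f := fun p : ℝ × ℝ => p.2 ^ (n - 2) / (p.2 ^ 2 + p.1 ^ 2) ^ (n - 1))
      (by fun_prop : Measurable _).stronglyMeasurable
  have e : rad n ρ = fun d : ℝ =>
      d * ∫ r in Ioc (0 : ℝ) ρ, r ^ (n - 2) / (r ^ 2 + d ^ 2) ^ (n - 1) := by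
    funext d
    simp [rad, intervalIntegral.integral_of_le hρ]
  rw [e]
  exact measurable_id.mul h.measurable

theorem measurable_rad_dist (hG : IsMetric G) {ρ : ℝ} (hρ : 0 ≤ ρ) :
    Measurable fun p : (E n × E n) × E n × E n => rad n ρ (Γ.dist p.1.1 p.2.1) :=
  (measurable_rad hρ).comp ((Core.Mini.continuous_dist Γ hG).comp
    ((continuous_fst.comp continuous_fst).prodMk (continuous_fst.comp continuous_snd))).measurable

/-- A function bounded by `a j` where the distance is at most `r j`, with geometric decay of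
`a j r j ^ m`. -/
theorem lintegral_shells (hG : IsMetric G) (D : Varifold G h₀) {C : ℝ} (hC : 0 ≤ C)
    (hg : ∀ (y : E n) (r : ℝ), 0 < r →
      D.μ.real {p | Γ.dist y p.1 ≤ r} ≤ C * r ^ (n - 1))
    (x : E n) {T : Set (E n × E n)} (hT : MeasurableSet T) {h : E n × E n → ℝ} {r a : ℕ → ℝ}
    (hr : ∀ j, 0 < r j) (ha : ∀ j, 0 ≤ a j)
    (hcov : ∀ q ∈ T, ∃ j, Γ.dist x q.1 ≤ r j ∧ h q ≤ a j) {B : ℝ}
    (hB : ∀ j, a j * (C * r j ^ (n - 1)) ≤ B * (1 / 2) ^ j) :
    ∫⁻ q in T, ENNReal.ofReal (h q) ∂D.μ ≤ ENNReal.ofReal (2 * B) := by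
  have hB0 : 0 ≤ B := by
    have := (mul_nonneg (ha 0) (mul_nonneg hC (pow_nonneg (hr 0).le _))).trans (hB 0)
    simpa using this
  set S : ℕ → Set (E n × E n) := fun j => {q | Γ.dist x q.1 ≤ r j} with hS
  have hSm : ∀ j, MeasurableSet (S j) := fun j =>
    measurableSet_le ((continuous_dist_right hG Γ x).comp continuous_fst).measurable
      measurable_const
  calc ∫⁻ q in T, ENNReal.ofReal (h q) ∂D.μ
      = ∫⁻ q, T.indicator (fun q => ENNReal.ofReal (h q)) q ∂D.μ := (lintegral_indicator hT _).symm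
    _ ≤ ∫⁻ q, ∑' j, (S j).indicator (fun _ => ENNReal.ofReal (a j)) q ∂D.μ := by
        refine lintegral_mono fun q => ?_
        by_cases hq : q ∈ T
        · obtain ⟨j, hj, hh⟩ := hcov q hq
          rw [indicator_of_mem hq]
          refine le_trans ?_ (ENNReal.le_tsum j)
          rw [indicator_of_mem (show q ∈ S j from hj)]
          exact ENNReal.ofReal_le_ofReal hh
        · simp [indicator_of_notMem hq]
    _ = ∑' j, ENNReal.ofReal (a j) * D.μ (S j) := by
        rw [lintegral_tsum fun j => (measurable_const.indicator (hSm j)).aemeasurable]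
        simp only [lintegral_indicator_const (hSm _)]
    _ ≤ ∑' j, ENNReal.ofReal (B * (1 / 2) ^ j) := by
        refine ENNReal.tsum_le_tsum fun j => ?_
        rw [← ENNReal.ofReal_toReal (measure_ne_top D.μ (S j)), ← ENNReal.ofReal_mul (ha j)]
        exact ENNReal.ofReal_le_ofReal
          ((mul_le_mul_of_nonneg_left (hg x (r j) (hr j)) (ha j)).trans (hB j))
    _ = ENNReal.ofReal (∑' j : ℕ, B * (1 / 2) ^ j) :=
        (ENNReal.ofReal_tsum_of_nonneg (fun j => by positivity)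
          (summable_geometric_two.mul_left B)).symm
    _ = ENNReal.ofReal (2 * B) := by rw [tsum_mul_left, tsum_geometric_two, mul_comm]

/-- The shell of a large distance. -/
theorem exists_far {R d : ℝ} (hR : 0 < R) (hd : R < d) :
    ∃ j : ℕ, d ≤ R * 2 ^ (j + 1) ∧ R * 2 ^ j < d := by
  have hex : ∃ j : ℕ, d ≤ R * 2 ^ (j + 1) := by
    obtain ⟨N, hN⟩ := pow_unbounded_of_one_lt (d / R) one_lt_two
    refine ⟨N, ?_⟩
    have := (div_lt_iff₀' hR).1 hN
    have : (2 : ℝ) ^ N ≤ 2 ^ (N + 1) := pow_le_pow_right₀ one_le_two N.le_succ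
    nlinarith
  classical
  refine ⟨Nat.find hex, Nat.find_spec hex, ?_⟩
  rcases Nat.eq_zero_or_pos (Nat.find hex) with h | h
  · simpa [h] using hd
  · have := Nat.find_min hex (Nat.sub_one_lt_of_lt h)
    rwa [Nat.sub_add_cancel h, not_le] at this

/-- The shell of a small distance. -/
theorem exists_near {R d : ℝ} (hd : 0 < d) (hR : d ≤ R) :
    ∃ j : ℕ, d ≤ R / 2 ^ j ∧ R / 2 ^ (j + 1) < d := by
  have hR0 : 0 < R := hd.trans_le hR
  have hex : ∃ j : ℕ, R / 2 ^ (j + 1) < d := by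
    obtain ⟨N, hN⟩ := pow_unbounded_of_one_lt (R / d) one_lt_two
    refine ⟨N, ?_⟩
    have := (div_lt_iff₀' hd).1 hN
    have : (2 : ℝ) ^ N ≤ 2 ^ (N + 1) := pow_le_pow_right₀ one_le_two N.le_succ
    rw [div_lt_iff₀ (by positivity)]
    nlinarith
  classical
  refine ⟨Nat.find hex, ?_, Nat.find_spec hex⟩
  rcases Nat.eq_zero_or_pos (Nat.find hex) with h | h
  · simpa [h] using hR
  · have := Nat.find_min hex (Nat.sub_one_lt_of_lt h)
    rwa [Nat.sub_add_cancel h, not_lt] at this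

/-- The row sums of the potential. -/
theorem lintegral_rad (hn : 3 ≤ n) (hG : IsMetric G) (D : Varifold G h₀) {C : ℝ} (hC : 0 ≤ C)
    (hg : ∀ (y : E n) (r : ℝ), 0 < r →
      D.μ.real {p | Γ.dist y p.1 ≤ r} ≤ C * r ^ (n - 1))
    (x : E n) {ρ : ℝ} (hρ : 0 < ρ) :
    ∫⁻ q, ENNReal.ofReal (rad n ρ (Γ.dist x q.1)) ∂D.μ ≤
      ENNReal.ofReal (8 * 2 ^ (n - 1) * C * ρ) := by
  set T : Set (E n × E n) := {q | Γ.dist x q.1 ≤ ρ} with hTd
  have hT : MeasurableSet T :=
    measurableSet_le ((continuous_dist_right hG Γ x).comp continuous_fst).measurable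
      measurable_const
  have h1 : ∫⁻ q in T, ENNReal.ofReal (rad n ρ (Γ.dist x q.1)) ∂D.μ ≤
      ENNReal.ofReal (2 * (2 * 2 ^ (n - 1) * C * ρ)) := by
    refine lintegral_shells hG D hC hg x hT (r := fun j => ρ / 2 ^ j)
      (a := fun j => 2 * (2 ^ (j + 1) / ρ) ^ (n - 2)) (fun j => by positivity)
      (fun j => by positivity) (fun q hq => ?_) fun j => ?_
    · rcases (show 0 ≤ Γ.dist x q.1 from Real.sqrt_nonneg _).eq_or_lt with h0 | h0
      · refine ⟨0, by rw [← h0]; positivity, ?_⟩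
        rw [← h0, rad_zero]
        positivity
      · obtain ⟨j, hj1, hj2⟩ := exists_near h0 hq
        refine ⟨j, hj1, (rad_le_near hn hρ.le h0).trans ?_⟩
        refine mul_le_mul_of_nonneg_left (pow_le_pow_left₀ (by positivity) ?_ _) zero_le_two
        have h3 := (div_lt_iff₀ (by positivity)).1 hj2
        rw [div_le_div_iff₀ h0 hρ]
        linarith
    · obtain ⟨k, rfl⟩ : ∃ k, n = k + 2 := ⟨n - 2, by omega⟩
      simp only [show k + 2 - 2 = k by omega, show k + 2 - 1 = k + 1 by omega]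
      have e : 2 * (2 ^ (j + 1) / ρ) ^ k * (C * (ρ / 2 ^ j) ^ (k + 1)) =
          2 * 2 ^ k * C * ρ * (1 / 2) ^ j := by
        rw [pow_succ (2 : ℝ) j, div_pow, div_pow, mul_pow, one_div_pow, pow_succ ρ k,
          pow_succ ((2 : ℝ) ^ j) k]
        field_simp
      rw [e]
      gcongr
      · norm_num
      · omega
  have h2 : ∫⁻ q in Tᶜ, ENNReal.ofReal (rad n ρ (Γ.dist x q.1)) ∂D.μ ≤
      ENNReal.ofReal (2 * (2 * 2 ^ (n - 1) * C * ρ)) := by
    refine lintegral_shells hG D hC hg x hT.compl (r := fun j => ρ * 2 ^ (j + 1))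
      (a := fun j => ρ ^ (n - 1) / (ρ * 2 ^ j) ^ (2 * n - 3)) (fun j => by positivity)
      (fun j => by positivity) (fun q hq => ?_) fun j => ?_
    · have hq' : ρ < Γ.dist x q.1 := not_le.1 hq
      obtain ⟨j, hj1, hj2⟩ := exists_far hρ hq'
      refine ⟨j, hj1, (rad_le_far hn hρ.le (hρ.trans hq')).trans ?_⟩
      gcongr
    · obtain ⟨k, rfl⟩ : ∃ k, n = k + 3 := ⟨n - 3, by omega⟩
      simp only [show k + 3 - 1 = k + 2 by omega, show 2 * (k + 3) - 3 = (k + 2) + (k + 1) by omega]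
      have e : ρ ^ (k + 2) / (ρ * 2 ^ j) ^ (k + 2 + (k + 1)) * (C * (ρ * 2 ^ (j + 1)) ^ (k + 2)) =
          C * ρ * 2 ^ (k + 2) / 2 ^ (j * (k + 1)) := by
        rw [pow_mul, pow_succ (2 : ℝ) j, mul_pow, mul_pow, mul_pow]
        field_simp
        ring
      rw [e, one_div_pow, mul_one_div]
      have h3 : (2 : ℝ) ^ j ≤ 2 ^ (j * (k + 1)) :=
        pow_le_pow_right₀ one_le_two (Nat.le_mul_of_pos_right j (by omega))
      refine div_le_div₀ (by positivity) ?_ (by positivity) h3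
      nlinarith [mul_nonneg (mul_nonneg hC hρ.le) (pow_nonneg (zero_le_two (α := ℝ)) (k + 2))]
  rw [← lintegral_add_compl _ hT]
  refine (add_le_add h1 h2).trans ?_
  rw [← ENNReal.ofReal_add (by positivity) (by positivity)]
  exact le_of_eq (by ring_nf)

theorem integrable_rad (hn : 3 ≤ n) (hG : IsMetric G) (D : Varifold G h₀) (x : E n) {ρ : ℝ}
    (hρ : 0 < ρ) : Integrable (fun q => rad n ρ (Γ.dist x q.1)) D.μ := by
  obtain ⟨C, hC, hg⟩ := growth (by omega) hG D Γ
  refine ⟨((measurable_rad hρ.le).comp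
    ((continuous_dist_right hG Γ x).comp continuous_fst).measurable).aestronglyMeasurable, ?_⟩
  rw [hasFiniteIntegral_iff_ofReal (f := fun q : E n × E n => rad n ρ (Γ.dist x q.1))
    (ae_of_all _ fun q => rad_nonneg hρ.le (Real.sqrt_nonneg _))]
  exact (lintegral_rad hn hG D hC hg x hρ).trans_lt ENNReal.ofReal_lt_top

theorem exists_bound (hG : IsMetric G) (D : Varifold G h₀) {g : E n × E n → ℝ} {K : Set (E n)}
    (hK : IsCompact K) (hg : Continuous g) (hgK : ∀ p, p.1 ∉ K → g p = 0) :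
    ∃ M : ℝ, ∀ᵐ p ∂D.μ, ‖g p‖ ≤ M := by
  obtain ⟨M, hM⟩ := (isCompact_unitBundle hG hK).exists_bound_of_continuousOn hg.continuousOn
  refine ⟨max M 0, ?_⟩
  filter_upwards [D.unit] with p hp
  by_cases h : p.1 ∈ K
  · exact (hM p ⟨h, hp⟩).trans (le_max_left _ _)
  · simp [hgK p h]

end Mono

/-- The potential is integrable against functions supported over compact sets. -/
theorem radIntStmt : RadIntStmt := by
  intro n G e Γ h₀ hn hG _ D x ρ hρ g K hK hg hgK
  obtain ⟨M, hM⟩ := Mono.exists_bound hG.metric D hK hg hgK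
  exact (Mono.integrable_rad hn hG.metric D x hρ).mul_bdd hg.aestronglyMeasurable hM

end

end Vale.Agent.P219.CH.Full
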