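import Vale.Agent.P219.CH.Full.Mono.Rad

/-!
P219, the monotonicity module: Schur's test for the potential and the tail of the kernel.
-/

namespace Vale.Agent.P219.CH.Full

open MeasureTheory Filter Topology Set
open scoped ContDiff RealInnerProductSpace ENNReal

noncomputable section

namespace Mono

theorem geoDist_nonneg {n : ℕ} {G : Coeff n} {Γ : Geo G} (x y : E n) : 0 ≤ Γ.dist x y :=
  Real.sqrt_nonneg _

attribute [local irreducible] rad Geo.dist

variable {n : ℕ} {G : Coeff n} {Γ : Geo G} {h₀ C : ℝ}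

theorem continuous_schurKern (hM : IsMetric G) {ρ : ℝ} (hρ : 0 < ρ) (x : E n) :
    Continuous (fun q : E n × E n => kern n ρ (Γ.dist x q.1)) :=
  (continuous_const.div (continuous_const.add
    (((continuous_dist_right hM Γ x).comp continuous_fst).pow 2))
      fun _ => (add_pos_of_pos_of_nonneg (pow_pos hρ 2) (sq_nonneg _)).ne').pow _

theorem schurKern_nonneg {ρ d : ℝ} (hρ : 0 ≤ ρ) : 0 ≤ kern n ρ d :=
  pow_nonneg (div_nonneg hρ (by positivity)) _

/-- The tail of the kernel. -/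
theorem kern_tail (hn : 3 ≤ n) (hM : IsMetric G) (D : Varifold G h₀) (hC0 : 0 ≤ C)
    (hg : ∀ (y : E n) (r : ℝ), 0 < r →
      D.μ.real {p | Γ.dist y p.1 ≤ r} ≤ C * r ^ (n - 1))
    {ρ R : ℝ} (hρ : 0 < ρ) (hR : 0 < R) (x : E n) :
    ∫⁻ q in {q | R < Γ.dist x q.1}, ENNReal.ofReal (kern n ρ (Γ.dist x q.1)) ∂D.μ ≤
      ENNReal.ofReal (2 * 2 ^ (n - 1) * C * (ρ / R) ^ (n - 1)) := by
  have h := lintegral_shells hM D hC0 hg x
    (T := {q | R < Γ.dist x q.1})
    (measurableSet_lt measurable_const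
      ((continuous_dist_right hM Γ x).comp continuous_fst).measurable)
    (h := fun q => kern n ρ (Γ.dist x q.1)) (r := fun j => R * 2 ^ (j + 1))
    (a := fun j => (ρ / (R * 2 ^ j) ^ 2) ^ (n - 1)) (B := 2 ^ (n - 1) * C * (ρ / R) ^ (n - 1))
    (fun j => by positivity) (fun j => by positivity) (fun q hq => ?_) (fun j => ?_)
  · refine h.trans (le_of_eq ?_)
    ring_nf
  · obtain ⟨j, hj1, hj2⟩ := exists_far hR hq
    refine ⟨j, hj1, pow_le_pow_left₀ (by positivity) ?_ _⟩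
    refine div_le_div_of_nonneg_left hρ.le (by positivity) ?_
    nlinarith [pow_le_pow_left₀ (by positivity) hj2.le 2]
  · have e : (ρ / (R * 2 ^ j) ^ 2) ^ (n - 1) * (C * (R * 2 ^ (j + 1)) ^ (n - 1)) =
        2 ^ (n - 1) * C * (ρ / R) ^ (n - 1) * ((1 / 2) ^ j) ^ (n - 1) := by
      have e1 : ρ / (R * 2 ^ j) ^ 2 * (R * 2 ^ (j + 1)) = 2 * (ρ / R) * (1 / 2) ^ j := by
        rw [one_div_pow, pow_succ]
        field_simp
        ring
      rw [mul_left_comm, ← mul_pow, e1, mul_pow, mul_pow]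
      ring
    rw [e]
    refine mul_le_mul_of_nonneg_left ?_ (by positivity)
    exact pow_le_of_le_one (by positivity) (pow_le_one₀ (by norm_num) (by norm_num)) (by omega)

/-- The total mass of the kernel. -/
theorem kern_total (hn : 3 ≤ n) (hM : IsMetric G) (D : Varifold G h₀) (hC0 : 0 ≤ C)
    (hg : ∀ (y : E n) (r : ℝ), 0 < r →
      D.μ.real {p | Γ.dist y p.1 ≤ r} ≤ C * r ^ (n - 1))
    {ρ : ℝ} (hρ : 0 < ρ) (x : E n) :
    ∫⁻ q, ENNReal.ofReal (kern n ρ (Γ.dist x q.1)) ∂D.μ ≤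
      ENNReal.ofReal (3 * 2 ^ (n - 1) * C) := by
  set T : Set (E n × E n) := {q | Γ.dist x q.1 ≤ ρ} with hTd
  have hT : MeasurableSet T :=
    measurableSet_le ((continuous_dist_right hM Γ x).comp continuous_fst).measurable
      measurable_const
  have h1 : ∫⁻ q in T, ENNReal.ofReal (kern n ρ (Γ.dist x q.1)) ∂D.μ ≤ ENNReal.ofReal C := by
    calc ∫⁻ q in T, ENNReal.ofReal (kern n ρ (Γ.dist x q.1)) ∂D.μ
        ≤ ∫⁻ _q in T, ENNReal.ofReal ((1 / ρ) ^ (n - 1)) ∂D.μ := by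
          refine lintegral_mono fun q => ENNReal.ofReal_le_ofReal
            (pow_le_pow_left₀ (by positivity) ?_ _)
          rw [div_le_div_iff₀ (by positivity) hρ]
          nlinarith [sq_nonneg (Γ.dist x q.1)]
      _ ≤ ENNReal.ofReal C := by
          rw [setLIntegral_const, ← ENNReal.ofReal_toReal (measure_ne_top D.μ T),
            ← ENNReal.ofReal_mul (by positivity)]
          refine ENNReal.ofReal_le_ofReal
            ((mul_le_mul_of_nonneg_left (hg x ρ hρ) (by positivity)).trans (le_of_eq ?_))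
          rw [mul_left_comm, ← mul_pow, one_div_mul_cancel hρ.ne', one_pow, mul_one]
  have h2 := kern_tail hn hM D hC0 hg hρ hρ x
  rw [div_self hρ.ne', one_pow, mul_one] at h2
  rw [← lintegral_add_compl _ hT]
  have hc : Tᶜ = {q | ρ < Γ.dist x q.1} := by ext q; simp [hTd]
  rw [hc]
  refine (add_le_add h1 h2).trans ?_
  rw [← ENNReal.ofReal_add hC0 (by positivity)]
  refine ENNReal.ofReal_le_ofReal ?_
  have h3 : (1 : ℝ) ≤ 2 ^ (n - 1) := one_le_pow₀ one_le_two
  nlinarith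

/-- Schur's test for the potential. -/
theorem schur_rad (hn : 3 ≤ n) (hM : IsMetric G) (hsymm : ∀ x y, Γ.dist x y = Γ.dist y x)
    (D : Varifold G h₀) (hC0 : 0 ≤ C)
    (hg : ∀ (y : E n) (r : ℝ), 0 < r →
      D.μ.real {p | Γ.dist y p.1 ≤ r} ≤ C * r ^ (n - 1))
    {ρ : ℝ} (hρ : 0 < ρ) {f g : E n × E n → ℝ} {K : Set (E n)} (hK : IsCompact K)
    (hf : Continuous f) (hg' : Continuous g) (hfK : ∀ p, p.1 ∉ K → f p = 0)
    (hgK : ∀ p, p.1 ∉ K → g p = 0) :
    Integrable (fun p => f p * ∫ q, rad n ρ (Γ.dist p.1 q.1) * g q ∂D.μ) D.μ ∧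
      ∫ p, f p * (∫ q, rad n ρ (Γ.dist p.1 q.1) * g q ∂D.μ) ∂D.μ ≤
        (8 * 2 ^ (n - 1) * C + C) * ρ * Real.sqrt (∫ p, f p ^ 2 ∂D.μ) *
          Real.sqrt (∫ p, g p ^ 2 ∂D.μ) := by
  obtain ⟨Mf, hMf⟩ := exists_bound hM D hK hf hfK
  obtain ⟨Mg, hMg⟩ := exists_bound hM D hK hg' hgK
  set L : ℝ := 8 * 2 ^ (n - 1) * C * ρ with hL
  have hL0 : 0 ≤ L := by positivity
  set Rk : (E n × E n) × E n × E n → ℝ := fun p => rad n ρ (Γ.dist p.1.1 p.2.1) with hR
  have hR0 : ∀ p, 0 ≤ Rk p := fun p => rad_nonneg hρ.le (geoDist_nonneg _ _)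
  have hRm := measurable_rad_dist (Γ := Γ) hM hρ.le
  have hrow : ∀ x : E n, ∫ q, rad n ρ (Γ.dist x q.1) ∂D.μ ≤ L := fun x => by
    rw [integral_eq_lintegral_of_nonneg_ae (f := fun q : E n × E n => rad n ρ (Γ.dist x q.1))
      (ae_of_all _ fun q => rad_nonneg hρ.le (geoDist_nonneg _ _))
      (integrable_rad hn hM D x hρ).aestronglyMeasurable]
    exact ENNReal.toReal_le_of_le_ofReal hL0 (lintegral_rad hn hM D hC0 hg x hρ)
  have hRi : Integrable Rk (D.μ.prod D.μ) := by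
    refine ⟨hRm.aestronglyMeasurable, ?_⟩
    rw [hasFiniteIntegral_iff_ofReal (f := Rk) (ae_of_all _ hR0),
      lintegral_prod (fun p => ENNReal.ofReal (Rk p)) hRm.ennreal_ofReal.aemeasurable]
    have hb : ∀ p : E n × E n,
        ∫⁻ q, ENNReal.ofReal (Rk (p, q)) ∂D.μ ≤ ENNReal.ofReal L := fun p => by
      simp only [hR]
      exact lintegral_rad hn hM D hC0 hg p.1 hρ
    refine (lintegral_mono hb).trans_lt ?_
    rw [lintegral_const]
    exact ENNReal.mul_lt_top ENNReal.ofReal_lt_top (measure_lt_top _ _)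
  have hf1 : AEStronglyMeasurable (fun p : (E n × E n) × E n × E n => f p.1) (D.μ.prod D.μ) :=
    (hf.comp continuous_fst).aestronglyMeasurable
  have hg1 : AEStronglyMeasurable (fun p : (E n × E n) × E n × E n => g p.2) (D.μ.prod D.μ) :=
    (hg'.comp continuous_snd).aestronglyMeasurable
  have bf : ∀ᵐ p ∂D.μ.prod D.μ, ‖f p.1‖ ≤ Mf := Measure.quasiMeasurePreserving_fst.ae hMf
  have bg : ∀ᵐ p ∂D.μ.prod D.μ, ‖g p.2‖ ≤ Mg := Measure.quasiMeasurePreserving_snd.ae hMg
  have i0 : Integrable (fun p => f p.1 * (Rk p * g p.2)) (D.μ.prod D.μ) :=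
    (hRi.mul_bdd hg1 bg).bdd_mul hf1 bf
  have i1 : Integrable (fun p => f p.1 ^ 2 * Rk p) (D.μ.prod D.μ) := by
    refine hRi.bdd_mul (c := Mf ^ 2) (hf1.pow 2) (bf.mono fun p hp => ?_)
    rw [norm_pow]
    exact pow_le_pow_left₀ (norm_nonneg _) hp 2
  have i2 : Integrable (fun p => g p.2 ^ 2 * Rk p) (D.μ.prod D.μ) := by
    refine hRi.bdd_mul (c := Mg ^ 2) (hg1.pow 2) (bg.mono fun p hp => ?_)
    rw [norm_pow]
    exact pow_le_pow_left₀ (norm_nonneg _) hp 2
  have hfT : Integrable (fun p => f p * ∫ q, rad n ρ (Γ.dist p.1 q.1) * g q ∂D.μ) D.μ := by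
    refine i0.integral_prod_left.congr (ae_of_all _ fun p => ?_)
    simp only [hR, integral_const_mul]
  refine ⟨hfT, ?_⟩
  set A := Real.sqrt (∫ p, f p ^ 2 ∂D.μ) with hA
  set B := Real.sqrt (∫ p, g p ^ 2 ∂D.μ) with hB
  have hA2 : A ^ 2 = ∫ p, f p ^ 2 ∂D.μ := Real.sq_sqrt (integral_nonneg fun p => sq_nonneg _)
  have hB2 : B ^ 2 = ∫ p, g p ^ 2 ∂D.μ := Real.sq_sqrt (integral_nonneg fun p => sq_nonneg _)
  have hF : ∫ p, f p.1 ^ 2 * Rk p ∂D.μ.prod D.μ ≤ L * A ^ 2 := by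
    rw [integral_prod _ i1, hA2, ← integral_const_mul]
    refine integral_mono i1.integral_prod_left
      ((D.integrable_of_supp hM (hf.pow 2) hK fun p hp => by simp [hfK p hp]).const_mul _)
      fun p => ?_
    dsimp only
    rw [integral_const_mul, mul_comm L]
    exact mul_le_mul_of_nonneg_left (hrow p.1) (sq_nonneg _)
  have hG2 : ∫ p, g p.2 ^ 2 * Rk p ∂D.μ.prod D.μ ≤ L * B ^ 2 := by
    rw [integral_prod_symm _ i2, hB2, ← integral_const_mul]
    refine integral_mono i2.integral_prod_right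
      ((D.integrable_of_supp hM (hg'.pow 2) hK fun p hp => by simp [hgK p hp]).const_mul _)
      fun q => ?_
    dsimp only
    rw [integral_const_mul, mul_comm L]
    refine mul_le_mul_of_nonneg_left ?_ (sq_nonneg _)
    simp only [hR, hsymm _ q.1]
    exact hrow q.1
  have hJ : ∫ p, f p * (∫ q, rad n ρ (Γ.dist p.1 q.1) * g q ∂D.μ) ∂D.μ =
      ∫ p, f p.1 * (Rk p * g p.2) ∂D.μ.prod D.μ := by
    rw [integral_prod _ i0]
    simp only [hR, integral_const_mul]
  rw [hJ]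
  have hA0 : 0 ≤ A := Real.sqrt_nonneg _
  have hB0 : 0 ≤ B := Real.sqrt_nonneg _
  refine le_trans (le_of_forall_pos_le_add fun δ hδ => ?_)
    (show L * A * B ≤ (8 * 2 ^ (n - 1) * C + C) * ρ * A * B by
      rw [hL]; gcongr; exact le_add_of_nonneg_right hC0)
  set ε : ℝ := δ / (L * (A + B) + 1) with hε
  have hε0 : 0 < ε := by positivity
  set t : ℝ := (B + ε) / (A + ε) with ht
  have ht0 : 0 < t := by positivity
  have hmain : ∫ p, f p.1 * (Rk p * g p.2) ∂D.μ.prod D.μ ≤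
      t / 2 * (L * A ^ 2) + 1 / (2 * t) * (L * B ^ 2) := by
    refine le_trans (integral_mono i0 ((i1.const_mul (t / 2)).add (i2.const_mul (1 / (2 * t))))
      fun p => ?_) ?_
    · simp only [Pi.add_apply]
      have h2 : f p.1 * g p.2 ≤ t / 2 * f p.1 ^ 2 + 1 / (2 * t) * g p.2 ^ 2 := by
        have h3 := sq_nonneg (t * f p.1 - g p.2)
        field_simp
        nlinarith
      calc f p.1 * (Rk p * g p.2) = f p.1 * g p.2 * Rk p := by ring
        _ ≤ (t / 2 * f p.1 ^ 2 + 1 / (2 * t) * g p.2 ^ 2) * Rk p :=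
          mul_le_mul_of_nonneg_right h2 (hR0 p)
        _ = _ := by ring
    · simp only [Pi.add_apply]
      rw [integral_add (i1.const_mul _) (i2.const_mul _), integral_const_mul, integral_const_mul]
      gcongr
  refine hmain.trans ?_
  have h1 : t * A ^ 2 ≤ (B + ε) * A := by
    rw [ht, div_mul_eq_mul_div, div_le_iff₀ (by positivity)]
    nlinarith [mul_nonneg (mul_nonneg (add_nonneg hB0 hε0.le) hA0) hε0.le]
  have h2 : B ^ 2 / t ≤ (A + ε) * B := by
    rw [ht, div_div_eq_mul_div, div_le_iff₀ (by positivity)]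
    nlinarith [mul_nonneg (mul_nonneg (add_nonneg hA0 hε0.le) hB0) hε0.le]
  have h3 : L * (A + B) * ε ≤ δ := by
    rw [hε, mul_div_assoc', div_le_iff₀ (by positivity)]
    nlinarith
  have h4 : 1 / (2 * t) * (L * B ^ 2) = L / 2 * (B ^ 2 / t) := by ring_nf
  rw [h4]
  nlinarith [mul_le_mul_of_nonneg_left h1 hL0, mul_le_mul_of_nonneg_left h2 hL0,
    mul_nonneg (mul_nonneg hL0 (add_nonneg hA0 hB0)) hε0.le]

end Mono

open Mono in
/-- Schur's test. -/
theorem schurStmt : SchurStmt := by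
  intro n G e Γ h₀ hn hG hC D
  obtain ⟨C, hC0, hg⟩ := growth (by omega) hG.metric D Γ
  have hM := hG.metric
  have hP : (0 : ℝ) ≤ 2 ^ (n - 1) * C := by positivity
  refine ⟨8 * 2 ^ (n - 1) * C + C, by positivity, ?_, ?_, ?_⟩
  · intro ρ hρ f g K hK hf hg' _ _ hfK hgK
    exact schur_rad hn hM hC.dist_comm D hC0 hg hρ hK hf hg' hfK hgK
  · intro ρ R hρ hR x
    rw [integral_eq_lintegral_of_nonneg_ae (f := fun q : E n × E n => kern n ρ (Γ.dist x q.1))
      (ae_of_all _ fun q => schurKern_nonneg hρ.le) (continuous_schurKern hM hρ x).aestronglyMeasurable]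
    refine ENNReal.toReal_le_of_le_ofReal (by positivity)
      ((kern_tail hn hM D hC0 hg hρ hR x).trans (ENNReal.ofReal_le_ofReal ?_))
    gcongr
    linarith
  · intro ρ hρ x
    rw [integral_eq_lintegral_of_nonneg_ae (f := fun q : E n × E n => kern n ρ (Γ.dist x q.1))
      (ae_of_all _ fun q => schurKern_nonneg hρ.le) (continuous_schurKern hM hρ x).aestronglyMeasurable]
    refine ENNReal.toReal_le_of_le_ofReal (by positivity)
      ((kern_total hn hM D hC0 hg hρ x).trans (ENNReal.ofReal_le_ofReal ?_))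
    linarith

end

end Vale.Agent.P219.CH.Full
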