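import Vale.Agent.P219.CH.Full.Statements
import Vale.Agent.P219.CH.Full.Tools
import Vale.Agent.P219.CH.Full.Minimiser.Basic
import Vale.Agent.P219.CH.Core.Field.Point

/-!
P219, the monotonicity module: the first variation on radial fields.
-/

namespace Vale.Agent.P219.CH.Full.Mono

open MeasureTheory Filter Topology Set
open scoped ContDiff RealInnerProductSpace

noncomputable section

variable {n : ℕ} {G : Coeff n}

theorem contDiff_sqd (hG : IsMetric G) (Γ : Geo G) (x : E n) : ContDiff ℝ 1 (sqd Γ x) :=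
  (Core.Field.contDiff_rho Γ hG).comp (contDiff_prodMk_right x)

theorem contDiff_V (Γ : Geo G) (x : E n) : ContDiff ℝ 1 (Γ.V x) :=
  (Core.Field.contDiff_V Γ).comp (contDiff_prodMk_right x)

theorem continuous_dist_right (hG : IsMetric G) (Γ : Geo G) (x : E n) : Continuous (Γ.dist x) :=
  (Core.Mini.continuous_dist Γ hG).comp (Continuous.prodMk_right x)

theorem dist_sq (hG : IsMetric G) (Γ : Geo G) (x y : E n) : Γ.dist x y ^ 2 = sqd Γ x y :=
  Core.Field.dist_sq Γ hG x y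

/-- The tangential divergence of a multiple of a field. -/
theorem divT_smul {s : E n → ℝ} {Z : E n → E n} (hs : ContDiff ℝ 1 s) (hZ : ContDiff ℝ 1 Z)
    (p : E n × E n) :
    divT G (fun z => s z • Z z) p = s p.1 * divT G Z p + fderiv ℝ s p.1 (Z p.1) -
      fderiv ℝ s p.1 p.2 * G p.1 (Z p.1) p.2 := by
  have h := fderiv_fun_smul (hs.differentiable one_ne_zero p.1) (hZ.differentiable one_ne_zero p.1)
  have e : covd G (fun z => s z • Z z) p.1 p.2 =
      s p.1 • covd G Z p.1 p.2 + fderiv ℝ s p.1 p.2 • Z p.1 := by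
    simp [covd, h, chr_smul_right]
    abel
  simp only [divT, Minimiser.divg_smul hs hZ, e, map_add, map_smul, add_apply, smul_apply,
    smul_eq_mul]
  ring

/-- Hessian comparison on a hyperplane. -/
theorem md_le_divT_V (hG : IsMetric G) (Γ : Geo G) (x : E n) {p : E n × E n}
    (hp : G p.1 p.2 p.2 = 1) : md n ≤ divT G (Γ.V x) p := by
  have h := Core.Field.le_trace_sub (G p.1) (hG.symm p.1) (hG.pos p.1)
    (Core.Field.covdL G (Γ.V x) p.1) (fun w => Γ.hess x p.1 w) (Or.inr hp)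
  rw [← Core.Field.divg_eq_trace, Core.Field.covdL_apply, hp] at h
  exact h

/-- The tangential parts of `∇g` and `V`. -/
theorem abs_tangent_le (hG : IsMetric G) (g : E n → ℝ) (v : E n) {p : E n × E n}
    (hp : G p.1 p.2 p.2 = 1) :
    |fderiv ℝ g p.1 v - fderiv ℝ g p.1 p.2 * G p.1 v p.2| ≤
      Real.sqrt (tgsq G g p) * gnorm G p.1 v := by
  set a := grad G g p.1 - fderiv ℝ g p.1 p.2 • p.2 with ha
  set b := v - G p.1 v p.2 • p.2 with hb
  have h := hG.cauchy p.1 a b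
  have e1 : G p.1 a b = fderiv ℝ g p.1 v - fderiv ℝ g p.1 p.2 * G p.1 v p.2 := by
    simp only [ha, hb, map_sub, map_smul, sub_apply, smul_apply, smul_eq_mul, hG.G_grad,
      hG.symm p.1 p.2 v, hp]
    ring
  have e2 : G p.1 a a = tgsq G g p := by
    simp only [ha, map_sub, map_smul, sub_apply, smul_apply, smul_eq_mul, hG.G_grad,
      hG.symm p.1 p.2 (grad G g p.1), hp, tgsq, tgp]
    ring
  have e3 : G p.1 b b ≤ G p.1 v v := by
    simp only [hb, map_sub, map_smul, sub_apply, smul_apply, smul_eq_mul,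
      hG.symm p.1 p.2 v, hp]
    nlinarith [sq_nonneg (G p.1 v p.2)]
  rw [e1, gnorm, e2] at h
  exact h.trans (mul_le_mul_of_nonneg_left (Real.sqrt_le_sqrt e3) (Real.sqrt_nonneg _))

theorem fderiv_eq_zero_of_nonneg {g : E n → ℝ} (hg : ∀ x, 0 ≤ g x) {x : E n} (hx : g x = 0) :
    fderiv ℝ g x = 0 :=
  IsLocalMin.fderiv_eq_zero (Eventually.of_forall fun y => hx ▸ hg y)

theorem tgsq_eq_zero_of_min {g : E n → ℝ} (hg : ∀ x, 0 ≤ g x) {p : E n × E n} (hx : g p.1 = 0) :
    tgsq G g p = 0 := by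
  simp [tgsq, tgp, fderiv_eq_zero_of_nonneg hg hx]

variable {Γ : Geo G} {h₀ : ℝ}

/-- The pointwise form of the first variation on a radial field. -/
theorem radial_divT_ge (hG : IsMetric G) (D : Varifold G h₀) (y : E n) {φ : ℝ → ℝ}
    (hφ : ∀ z, ContDiffAt ℝ 1 φ (sqd Γ y z)) {g : E n → ℝ} (hg : ContDiff ℝ 1 g) {p : E n × E n}
    (hp : G p.1 p.2 p.2 = 1) (hφ0 : 0 ≤ φ (sqd Γ y p.1)) (hφ1 : deriv φ (sqd Γ y p.1) ≤ 0)
    (hg0 : 0 ≤ g p.1) :
    g p.1 * (md n * φ (sqd Γ y p.1) + 2 * deriv φ (sqd Γ y p.1) * sqd Γ y p.1) -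
        φ (sqd Γ y p.1) * Γ.dist y p.1 * (h₀ * g p.1 + Real.sqrt (tgsq G g p)) ≤
      divT G (fun z => (g z * φ (sqd Γ y z)) • Γ.V y z) p -
        D.h p.1 * G p.1 ((g p.1 * φ (sqd Γ y p.1)) • Γ.V y p.1) p.2 := by
  have hs : ContDiff ℝ 1 fun z => g z * φ (sqd Γ y z) := hg.mul
    (contDiff_iff_contDiffAt.2 fun z => (hφ z).comp z (contDiff_sqd hG Γ y).contDiffAt)
  set ρ := sqd Γ y p.1 with hρ
  set V := Γ.V y p.1 with hV
  set σ := G p.1 V p.2 with hσ
  set d := Γ.dist y p.1 with hd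
  have hd0 : 0 ≤ d := Real.sqrt_nonneg _
  have hdd : d ^ 2 = ρ := dist_sq hG Γ y p.1
  have hVd : gnorm G p.1 V = d := Core.Mini.gnorm_V Γ y p.1
  have hσd : |σ| ≤ d := by
    have := hG.cauchy p.1 V p.2
    rwa [hVd, gnorm, hp, Real.sqrt_one, mul_one] at this
  have hds : ∀ w, fderiv ℝ (fun z => g z * φ (sqd Γ y z)) p.1 w =
      φ ρ * fderiv ℝ g p.1 w + g p.1 * deriv φ ρ * (2 * G p.1 V w) := by
    intro w
    have h1 := ((hφ p.1).differentiableAt one_ne_zero).hasDerivAt.comp_hasFDerivAt p.1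
      ((contDiff_sqd hG Γ y).differentiable one_ne_zero p.1).hasFDerivAt
    have h2 := ((hg.differentiable one_ne_zero p.1).hasFDerivAt.fun_mul h1).fderiv
    have e : fderiv ℝ (sqd Γ y) p.1 w = 2 * G p.1 V w := Γ.grad_dist y p.1 w
    simp only [Function.comp_apply] at h2
    rw [h2]
    simp [e]
    ring
  have hT := abs_le.1 (abs_tangent_le hG g V hp)
  rw [hVd] at hT
  have hm := md_le_divT_V hG Γ y hp
  have hVV : G p.1 V V = ρ := Core.Field.sq_V Γ hG y p.1
  have hh : D.h p.1 * σ ≤ h₀ * d := by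
    have h0 : (0 : ℝ) ≤ h₀ := (abs_nonneg _).trans (D.h_le p.1)
    exact (le_abs_self _).trans (by
      rw [abs_mul]; exact mul_le_mul (D.h_le p.1) hσd (abs_nonneg _) h0)
  rw [divT_smul hs (contDiff_V Γ y), hds, hds]
  simp only [map_smul, smul_apply, smul_eq_mul]
  rw [hVV, ← hσ]
  nlinarith [mul_le_mul_of_nonneg_left hm (mul_nonneg hg0 hφ0),
    mul_le_mul_of_nonneg_left hT.1 hφ0, mul_le_mul_of_nonneg_left hh (mul_nonneg hg0 hφ0),
    mul_nonneg (mul_nonneg hg0 (neg_nonneg.2 hφ1)) (sq_nonneg σ)]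

/-- The first variation on a radial field. -/
theorem radial_variation (hG : IsMetric G) (D : Varifold G h₀) (y : E n) {φ : ℝ → ℝ} {U : Set ℝ}
    (hU : IsOpen U) (hU0 : Ici 0 ⊆ U) (hφ : ContDiffOn ℝ 1 φ U) (hφ0 : ∀ s, 0 ≤ s → 0 ≤ φ s) (hφ1 : ∀ s, 0 ≤ s → deriv φ s ≤ 0)
    {g : E n → ℝ} (hg : ContDiff ℝ 1 g) (hg0 : ∀ x, 0 ≤ g x) {K : Set (E n)} (hK : IsCompact K)
    (hKs : ∀ z, z ∉ K → g z = 0 ∨ φ (sqd Γ y z) = 0 ∧ deriv φ (sqd Γ y z) = 0) :
    ∫ p, g p.1 * (md n * φ (sqd Γ y p.1) + 2 * deriv φ (sqd Γ y p.1) * sqd Γ y p.1) ∂D.μ ≤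
      ∫ p, φ (sqd Γ y p.1) * Γ.dist y p.1 * (h₀ * g p.1 + Real.sqrt (tgsq G g p)) ∂D.μ := by
  set X : E n → E n := fun z => (g z * φ (sqd Γ y z)) • Γ.V y z with hXdef
  have hρU : ∀ z, sqd Γ y z ∈ U := fun z => hU0 (hG.nonneg y _)
  have hφ' : ∀ z, ContDiffAt ℝ 1 φ (sqd Γ y z) := fun z =>
    hφ.contDiffAt (hU.mem_nhds (hρU z))
  have hX : ContDiff ℝ 1 X := (hg.mul (contDiff_iff_contDiffAt.2 fun z =>
    (hφ' z).comp z (contDiff_sqd hG Γ y).contDiffAt)).smul (contDiff_V Γ y)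
  have hX0 : ∀ z, z ∉ K → X z = 0 := fun z hz => by
    rcases hKs z hz with h | ⟨h, -⟩ <;> simp [hXdef, h]
  have hXs : HasCompactSupport X := HasCompactSupport.intro hK hX0
  have hXK : tsupport X ⊆ K := closure_minimal
    (fun z hz => by_contra fun hzK => hz (hX0 z hzK)) hK.isClosed
  have hρc : Continuous fun p : E n × E n => sqd Γ y p.1 :=
    (contDiff_sqd hG Γ y).continuous.comp continuous_fst
  have hφc : Continuous fun p : E n × E n => φ (sqd Γ y p.1) :=
    hφ.continuousOn.comp_continuous hρc fun p => hρU p.1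
  have hφd : Continuous fun p : E n × E n => deriv φ (sqd Γ y p.1) :=
    (hφ.continuousOn_deriv_of_isOpen hU le_rfl).comp_continuous hρc fun p => hρU p.1
  have hgc : Continuous fun p : E n × E n => g p.1 := hg.continuous.comp continuous_fst
  have i1 : Integrable (fun p : E n × E n => g p.1 *
      (md n * φ (sqd Γ y p.1) + 2 * deriv φ (sqd Γ y p.1) * sqd Γ y p.1)) D.μ := by
    refine D.integrable_of_supp hG
      (hgc.mul ((continuous_const.mul hφc).add ((continuous_const.mul hφd).mul hρc))) hK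
      fun p hp => ?_
    rcases hKs p.1 hp with h | ⟨h, h'⟩ <;> simp [*]
  have i2 : Integrable (fun p : E n × E n => φ (sqd Γ y p.1) * Γ.dist y p.1 *
      (h₀ * g p.1 + Real.sqrt (tgsq G g p))) D.μ := by
    refine D.integrable_of_supp hG ((hφc.mul
      ((continuous_dist_right hG Γ y).comp continuous_fst)).mul
        ((continuous_const.mul hgc).add (continuous_tgsq hG hg).sqrt)) hK fun p hp => ?_
    rcases hKs p.1 hp with h | ⟨h, -⟩
    · simp [h, tgsq_eq_zero_of_min hg0 h]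
    · simp [h]
  have i3 : Integrable (fun p : E n × E n => divT G X p) D.μ := by
    refine D.integrable_of_supp hG (Minimiser.continuous_divT hG hX) hK fun p hp => ?_
    have hpx : p.1 ∉ tsupport X := fun h => hp (hXK h)
    simp [divT, Minimiser.divg_eq_zero hpx, Minimiser.covd_eq_zero hpx]
  have i4 : Integrable (fun p : E n × E n => D.h p.1 * G p.1 (X p.1) p.2) D.μ := by
    refine D.integrable_of_supp hG ((D.h_cont.comp continuous_fst).mul
      ((Core.Mini.continuous_apply₂ hG).comp (continuous_fst.prodMk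
        ((hX.continuous.comp continuous_fst).prodMk continuous_snd)))) hK fun p hp => ?_
    simp [hX0 p.1 hp]
  have h := integral_mono_ae (i1.sub i2) (i3.sub i4) (by
    filter_upwards [D.unit] with p hp
    exact radial_divT_ge hG D y hφ' hg hp (hφ0 _ (hG.nonneg y _)) (hφ1 _ (hG.nonneg y _)) (hg0 _))
  simp only [Pi.sub_apply] at h
  rw [integral_sub i1 i2, integral_sub i3 i4, D.first X hX hXs, sub_self] at h
  linarith

end

end Vale.Agent.P219.CH.Full.Mono
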