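import Vale.Agent.P219.CH.Full.Mono.Field
import Mathlib.Analysis.SpecialFunctions.SmoothTransition

/-!
P219, the monotonicity module: upper growth at all scales.
-/

namespace Vale.Agent.P219.CH.Full.Mono

open MeasureTheory Filter Topology Set
open scoped ContDiff RealInnerProductSpace

noncomputable section

variable {n : ℕ} {G : Coeff n} {Γ : Geo G} {h₀ : ℝ}

/-- Differentiation under the integral, for functions supported over a compact set. -/
theorem hasDerivAt_integral_supp (hG : IsMetric G) (D : Varifold G h₀)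
    {F F' : ℝ → E n × E n → ℝ} {r₀ a b : ℝ} (hr : r₀ ∈ Ioo a b)
    (hFc : ∀ r ∈ Ioo a b, Continuous (F r))
    (hF'c : ContinuousOn (Function.uncurry F') (Icc a b ×ˢ univ))
    {K : Set (E n)} (hK : IsCompact K) (hF0 : ∀ r ∈ Icc a b, ∀ p, p.1 ∉ K → F r p = 0)
    (hF'0 : ∀ r ∈ Icc a b, ∀ p, p.1 ∉ K → F' r p = 0)
    (hd : ∀ r ∈ Ioo a b, ∀ p, HasDerivAt (fun x => F x p) (F' r p) r) :
    HasDerivAt (fun r => ∫ p, F r p ∂D.μ) (∫ p, F' r₀ p ∂D.μ) r₀ := by
  obtain ⟨C, hC⟩ := ((isCompact_Icc (a := a) (b := b)).prod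
    (isCompact_unitBundle hG hK)).exists_bound_of_continuousOn
      (hF'c.mono (prod_mono_right (subset_univ _)))
  have hc : Continuous (F' r₀) := hF'c.comp_continuous (Continuous.prodMk_right r₀)
    fun p => ⟨Ioo_subset_Icc_self hr, mem_univ _⟩
  refine (hasDerivAt_integral_of_dominated_loc_of_deriv_le (bound := fun _ => max C 0)
    (isOpen_Ioo.mem_nhds hr) ?_ ?_ hc.aestronglyMeasurable ?_ (integrable_const _) ?_).2
  · filter_upwards [isOpen_Ioo.mem_nhds hr] with r h
    exact (hFc r h).aestronglyMeasurable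
  · exact D.integrable_of_supp hG (hFc r₀ hr) hK (hF0 r₀ (Ioo_subset_Icc_self hr))
  · filter_upwards [D.unit] with p hp r h
    by_cases hpK : p.1 ∈ K
    · exact (hC (r, p) ⟨Ioo_subset_Icc_self h, hpK, hp⟩).trans (le_max_left _ _)
    · simp [hF'0 r (Ioo_subset_Icc_self h) p hpK]
  · exact ae_of_all _ fun p r h => hd r h p

/-- A cut-off: one on `s ≤ 1`, zero on `4 ≤ s`. -/
def cut (s : ℝ) : ℝ := Real.smoothTransition ((4 - s) / 3)

theorem contDiff_cut : ContDiff ℝ 1 cut :=
  Real.smoothTransition.contDiff.comp (by fun_prop)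

theorem cut_nonneg (s : ℝ) : 0 ≤ cut s := Real.smoothTransition.nonneg _

theorem cut_le_one (s : ℝ) : cut s ≤ 1 := Real.smoothTransition.le_one _

theorem cut_of_le {s : ℝ} (h : s ≤ 1) : cut s = 1 :=
  Real.smoothTransition.one_of_one_le (by linarith)

theorem cut_of_ge {s : ℝ} (h : 4 ≤ s) : cut s = 0 :=
  Real.smoothTransition.zero_of_nonpos (by linarith)

theorem antitone_cut : Antitone cut := fun _ _ h =>
  Real.smoothTransition.monotone (by linarith)

theorem deriv_cut_nonpos (s : ℝ) : deriv cut s ≤ 0 := antitone_cut.deriv_nonpos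

theorem deriv_cut_of_gt {s : ℝ} (h : 4 < s) : deriv cut s = 0 := by
  have : cut =ᶠ[𝓝 s] fun _ => (0 : ℝ) := by
    filter_upwards [isOpen_Ioi.mem_nhds h] with t ht using cut_of_ge ht.le
  simp [this.deriv_eq]

/-- The smoothed mass of a ball. -/
def smass (D : Varifold G h₀) (Γ : Geo G) (y : E n) (r : ℝ) : ℝ :=
  ∫ p, cut (sqd Γ y p.1 / r ^ 2) ∂D.μ

theorem integrable_smass (hG : IsMetric G) (D : Varifold G h₀) (Γ : Geo G) (y : E n) (r : ℝ) :
    Integrable (fun p => cut (sqd Γ y p.1 / r ^ 2)) D.μ :=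
  Integrable.of_bound ((contDiff_cut.continuous.comp
    (((contDiff_sqd hG Γ y).continuous.comp continuous_fst).div_const _)).aestronglyMeasurable)
    1 (ae_of_all _ fun p => by
      rw [Real.norm_of_nonneg (cut_nonneg _)]; exact cut_le_one _)

theorem hasDerivAt_smass (hG : IsMetric G) (D : Varifold G h₀) (Γ : Geo G) (y : E n) {r : ℝ}
    (hr : 0 < r) :
    HasDerivAt (smass D Γ y)
      (∫ p, deriv cut (sqd Γ y p.1 / r ^ 2) * (-2 * sqd Γ y p.1 / r ^ 3) ∂D.μ) r := by
  have hρ : Continuous fun q : ℝ × (E n × E n) => sqd Γ y q.2.1 :=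
    (contDiff_sqd hG Γ y).continuous.comp (continuous_fst.comp continuous_snd)
  have hout : ∀ x ∈ Icc (r / 2) (2 * r), ∀ p : E n × E n, p.1 ∉ Core.gball Γ y (4 * r + 1) →
      4 < sqd Γ y p.1 / x ^ 2 := by
    intro x hx p hp
    have hx0 : 0 < x := lt_of_lt_of_le (by linarith) hx.1
    have hd : 4 * r + 1 < Γ.dist y p.1 := not_le.1 hp
    rw [lt_div_iff₀ (by positivity), ← dist_sq hG Γ y p.1]
    nlinarith [hx.2]
  refine hasDerivAt_integral_supp hG D (F := fun x p => cut (sqd Γ y p.1 / x ^ 2))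
    (F' := fun x p => deriv cut (sqd Γ y p.1 / x ^ 2) * (-2 * sqd Γ y p.1 / x ^ 3))
    (a := r / 2) (b := 2 * r) ⟨by linarith, by linarith⟩ ?_ ?_
    (Core.Field.isCompact_gball Γ hG y (4 * r + 1)) ?_ ?_ ?_
  · exact fun x _ => contDiff_cut.continuous.comp
      (((contDiff_sqd hG Γ y).continuous.comp continuous_fst).div_const _)
  · have hne : ∀ q ∈ Icc (r / 2) (2 * r) ×ˢ (univ : Set (E n × E n)), q.1 ≠ 0 :=
      fun q hq => ne_of_gt (lt_of_lt_of_le (by linarith) hq.1.1)
    exact ((contDiff_cut.continuous_deriv le_rfl).comp_continuousOn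
      (hρ.continuousOn.div (continuous_fst.pow 2).continuousOn
        fun q hq => pow_ne_zero _ (hne q hq))).mul
      ((continuous_const.mul hρ).continuousOn.div (continuous_fst.pow 3).continuousOn
        fun q hq => pow_ne_zero _ (hne q hq))
  · exact fun x hx p hp => cut_of_ge (hout x hx p hp).le
  · exact fun x hx p hp => by simp [deriv_cut_of_gt (hout x hx p hp)]
  · intro x hx p
    have hx0 : x ≠ 0 := ne_of_gt (lt_trans (by linarith) hx.1)
    have h := ((hasDerivAt_const x (sqd Γ y p.1)).div (hasDerivAt_pow 2 x) (pow_ne_zero _ hx0))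
    refine ((contDiff_cut.differentiable one_ne_zero _).hasDerivAt.comp x h).congr_deriv ?_
    simp only [Pi.div_apply]
    field_simp
    ring

theorem smass_ineq (hG : IsMetric G) (D : Varifold G h₀) (Γ : Geo G) (y : E n) {r : ℝ}
    (hr : 0 < r) :
    md n * smass D Γ y r -
        r * ∫ p, deriv cut (sqd Γ y p.1 / r ^ 2) * (-2 * sqd Γ y p.1 / r ^ 3) ∂D.μ ≤
      2 * h₀ * r * smass D Γ y r := by
  have h0 : 0 ≤ h₀ := (abs_nonneg _).trans (D.h_le y)
  have hφ : ContDiff ℝ 1 fun s => cut (s / r ^ 2) := contDiff_cut.comp (by fun_prop)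
  have hder : ∀ s, deriv (fun s => cut (s / r ^ 2)) s = deriv cut (s / r ^ 2) / r ^ 2 := fun s => by
    have h := (contDiff_cut.differentiable one_ne_zero (s / r ^ 2)).hasDerivAt.comp s
      ((hasDerivAt_id s).div_const (r ^ 2))
    exact h.deriv.trans (by ring)
  have hK := Core.Field.isCompact_gball Γ hG y (2 * r + 1)
  have hout : ∀ z, z ∉ Core.gball Γ y (2 * r + 1) → 4 < sqd Γ y z / r ^ 2 := by
    intro z hz
    have hd : 2 * r + 1 < Γ.dist y z := not_le.1 hz
    rw [lt_div_iff₀ (by positivity), ← dist_sq hG Γ y z]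
    nlinarith
  have h := radial_variation hG D y isOpen_univ (subset_univ _) hφ.contDiffOn (fun s _ => cut_nonneg _)
    (fun s _ => le_of_eq_of_le (hder s)
      (div_nonpos_of_nonpos_of_nonneg (deriv_cut_nonpos _) (sq_nonneg r)))
    (contDiff_const (c := (1 : ℝ))) (fun _ => zero_le_one) hK
    fun z hz => Or.inr ⟨cut_of_ge (hout z hz).le, by rw [hder, deriv_cut_of_gt (hout z hz), zero_div]⟩
  have e : ∀ p : E n × E n, tgsq G (fun _ : E n => (1 : ℝ)) p = 0 := fun p => by
    simp [tgsq, tgp]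
  simp only [one_mul, mul_one, hder, e, Real.sqrt_zero, add_zero] at h
  have i1 := integrable_smass hG D Γ y r
  have hρc : Continuous fun p : E n × E n => sqd Γ y p.1 :=
    (contDiff_sqd hG Γ y).continuous.comp continuous_fst
  have i2 : Integrable (fun p : E n × E n =>
      deriv cut (sqd Γ y p.1 / r ^ 2) * (-2 * sqd Γ y p.1 / r ^ 3)) D.μ := by
    refine D.integrable_of_supp hG (((contDiff_cut.continuous_deriv le_rfl).comp
      (hρc.div_const _)).mul ((continuous_const.mul hρc).div_const _)) hK fun p hp => ?_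
    simp [deriv_cut_of_gt (hout p.1 hp)]
  have hR : ∫ p, cut (sqd Γ y p.1 / r ^ 2) * Γ.dist y p.1 * h₀ ∂D.μ ≤
      ∫ p, 2 * h₀ * r * cut (sqd Γ y p.1 / r ^ 2) ∂D.μ := by
    refine integral_mono_of_nonneg (ae_of_all _ fun p => ?_) (i1.const_mul _)
      (ae_of_all _ fun p => ?_)
    · exact mul_nonneg (mul_nonneg (cut_nonneg _) (Real.sqrt_nonneg _)) h0
    · rcases le_or_gt (Γ.dist y p.1) (2 * r) with hd | hd
      · nlinarith [mul_le_mul_of_nonneg_left hd (mul_nonneg (cut_nonneg (sqd Γ y p.1 / r ^ 2)) h0)]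
      · have : cut (sqd Γ y p.1 / r ^ 2) = 0 := cut_of_ge (by
          rw [le_div_iff₀ (by positivity), ← dist_sq hG Γ y p.1]; nlinarith)
        simp [this]
  have e2 : md n * smass D Γ y r -
      r * ∫ p, deriv cut (sqd Γ y p.1 / r ^ 2) * (-2 * sqd Γ y p.1 / r ^ 3) ∂D.μ =
      ∫ p, md n * cut (sqd Γ y p.1 / r ^ 2) +
        2 * (deriv cut (sqd Γ y p.1 / r ^ 2) / r ^ 2) * sqd Γ y p.1 ∂D.μ := by
    rw [smass, ← integral_const_mul, ← integral_const_mul,
      ← integral_sub (i1.const_mul _) (i2.const_mul _)]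
    exact integral_congr_ae (ae_of_all _ fun p => by field_simp; ring)
  rw [e2, smass, ← integral_const_mul]
  exact h.trans hR

/-- The monotone quantity. -/
theorem monotoneOn_smass (hn : 1 ≤ n) (hG : IsMetric G) (D : Varifold G h₀) (Γ : Geo G) (y : E n) :
    MonotoneOn (fun r => Real.exp (2 * h₀ * r) * smass D Γ y r / r ^ (n - 1)) (Ioi 0) := by
  have hd : ∀ r : ℝ, 0 < r → HasDerivAt
      (fun r => Real.exp (2 * h₀ * r) * smass D Γ y r / r ^ (n - 1)) _ r := fun r hr =>
    ((((hasDerivAt_id r).const_mul (2 * h₀)).exp.mul (hasDerivAt_smass hG D Γ y hr)).div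
      (hasDerivAt_pow (n - 1) r) (pow_ne_zero _ hr.ne'))
  refine monotoneOn_of_deriv_nonneg (convex_Ioi 0)
    (fun r hr => (hd r hr).continuousAt.continuousWithinAt) ?_ ?_ <;> rw [interior_Ioi]
  · exact fun r hr => (hd r hr).differentiableAt.differentiableWithinAt
  intro r hr
  rw [(hd r hr).deriv]
  have hr' : (0 : ℝ) < r := hr
  have h := smass_ineq hG D Γ y hr'
  rw [md_eq_cast hn] at h
  refine div_nonneg ?_ (sq_nonneg _)
  have hp : r * (r ^ (n - 1 - 1) * ((n - 1 : ℕ) : ℝ)) = r ^ (n - 1) * ((n - 1 : ℕ) : ℝ) := by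
    rcases Nat.eq_zero_or_pos (n - 1) with h0 | h0
    · simp [h0]
    · rw [← mul_assoc, ← pow_succ', Nat.sub_add_cancel h0]
  refine nonneg_of_mul_nonneg_right ?_ hr'
  simp only [id_eq, mul_one, Pi.mul_apply]
  set J := ∫ p, deriv cut (sqd Γ y p.1 / r ^ 2) * (-2 * sqd Γ y p.1 / r ^ 3) ∂D.μ
  linear_combination mul_le_mul_of_nonneg_left h
    (mul_nonneg (Real.exp_pos (2 * h₀ * r)).le (pow_nonneg hr'.le (n - 1))) +
    (Real.exp (2 * h₀ * r) * smass D Γ y r) * hp

theorem growth_le_one (hn : 1 ≤ n) (hG : IsMetric G) (D : Varifold G h₀) (Γ : Geo G) (y : E n)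
    {r : ℝ} (hr : 0 < r) (h1 : r ≤ 1) :
    D.μ.real {p | Γ.dist y p.1 ≤ r} ≤ Real.exp (2 * h₀) * D.μ.real univ * r ^ (n - 1) := by
  have h0 : 0 ≤ h₀ := (abs_nonneg _).trans (D.h_le y)
  have hS : MeasurableSet {p : E n × E n | Γ.dist y p.1 ≤ r} :=
    measurableSet_le ((continuous_dist_right hG Γ y).comp continuous_fst).measurable
      measurable_const
  have hA : D.μ.real {p | Γ.dist y p.1 ≤ r} ≤ smass D Γ y r := by
    rw [← integral_indicator_one hS]
    refine integral_mono ((integrable_const 1).indicator hS) (integrable_smass hG D Γ y r)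
      fun p => ?_
    by_cases hp : p ∈ {p : E n × E n | Γ.dist y p.1 ≤ r}
    · have hp' : Γ.dist y p.1 ≤ r := hp
      rw [indicator_of_mem hp]
      refine le_of_eq (cut_of_le ?_).symm
      rw [div_le_one (by positivity), ← dist_sq hG Γ y p.1]
      exact pow_le_pow_left₀ (Real.sqrt_nonneg _) hp' 2
    · rw [indicator_of_notMem hp]
      exact cut_nonneg _
  have hB : smass D Γ y 1 ≤ D.μ.real univ := by
    calc smass D Γ y 1 ≤ ∫ _p, (1 : ℝ) ∂D.μ :=
          integral_mono (integrable_smass hG D Γ y 1) (integrable_const _) fun p => cut_le_one _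
      _ = D.μ.real univ := by simp
  have hI : 0 ≤ smass D Γ y r := integral_nonneg fun p => cut_nonneg _
  have hm := monotoneOn_smass hn hG D Γ y (mem_Ioi.2 hr) (mem_Ioi.2 one_pos) h1
  simp only [one_pow, div_one, mul_one] at hm
  rw [div_le_iff₀ (pow_pos hr _)] at hm
  have he : 1 ≤ Real.exp (2 * h₀ * r) := Real.one_le_exp (by positivity)
  calc D.μ.real {p | Γ.dist y p.1 ≤ r} ≤ Real.exp (2 * h₀ * r) * smass D Γ y r :=
        hA.trans (le_mul_of_one_le_left hI he)
    _ ≤ Real.exp (2 * h₀) * smass D Γ y 1 * r ^ (n - 1) := hm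
    _ ≤ Real.exp (2 * h₀) * D.μ.real univ * r ^ (n - 1) := by gcongr

theorem growth (hn : 1 ≤ n) (hG : IsMetric G) (D : Varifold G h₀) (Γ : Geo G) :
    ∃ C : ℝ, 0 ≤ C ∧ ∀ (y : E n) (r : ℝ), 0 < r →
      D.μ.real {p | Γ.dist y p.1 ≤ r} ≤ C * r ^ (n - 1) := by
  have h0 : 0 ≤ h₀ := (abs_nonneg _).trans (D.h_le 0)
  refine ⟨Real.exp (2 * h₀) * D.μ.real univ, by positivity, fun y r hr => ?_⟩
  rcases le_total r 1 with h1 | h1
  · exact growth_le_one hn hG D Γ y hr h1
  · calc D.μ.real {p | Γ.dist y p.1 ≤ r} ≤ 1 * D.μ.real univ * 1 := by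
          rw [one_mul, mul_one]; exact measureReal_mono (subset_univ _)
      _ ≤ Real.exp (2 * h₀) * D.μ.real univ * r ^ (n - 1) := by
          gcongr
          · exact Real.one_le_exp (by positivity)
          · exact one_le_pow₀ h1

end

end Vale.Agent.P219.CH.Full.Mono
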