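import Vale.Agent.P219.CH.Full.Mono.Growth

/-!
P219, the monotonicity module: the kernel monotonicity between two scales.
-/

namespace Vale.Agent.P219.CH.Full.Mono

open MeasureTheory Filter Topology Set
open scoped ContDiff RealInnerProductSpace

noncomputable section

variable {n : ℕ} {G : Coeff n} {Γ : Geo G} {h₀ : ℝ}

/-- The profile of the kernel at scale `r`, as a function of the squared distance. -/
def kprof (n : ℕ) (r s : ℝ) : ℝ := (r / (r ^ 2 + s)) ^ (n - 1)

theorem kern_eq_kprof (n : ℕ) (r d : ℝ) : kern n r d = kprof n r (d ^ 2) := rfl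

theorem contDiffOn_kprof (n : ℕ) {r : ℝ} (hr : 0 < r) :
    ContDiffOn ℝ 1 (kprof n r) (Ioi (-r ^ 2)) :=
  ((contDiffOn_const.div (contDiffOn_const.add contDiffOn_id) fun s hs => by
    have : -r ^ 2 < s := hs
    simp only [id_eq]; linarith)).pow _

theorem kprof_nonneg (n : ℕ) {r s : ℝ} (hr : 0 < r) (hs : 0 ≤ s) : 0 ≤ kprof n r s :=
  pow_nonneg (div_nonneg hr.le (by positivity)) _

theorem hasDerivAt_kprof (hn : 2 ≤ n) {r s : ℝ} (hr : 0 < r) (hs : 0 ≤ s) :
    HasDerivAt (kprof n r) (-(md n * kprof n r s / (r ^ 2 + s))) s := by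
  have h0 : r ^ 2 + s ≠ 0 := (by positivity : 0 < r ^ 2 + s).ne'
  have h := ((hasDerivAt_const s r).div ((hasDerivAt_id s).const_add (r ^ 2)) h0).pow (n - 1)
  refine h.congr_deriv ?_
  rw [md_eq_cast (one_le_two.trans hn), kprof]
  obtain ⟨k, hk⟩ : ∃ k, n - 1 = k + 1 := ⟨n - 2, by omega⟩
  simp only [hk, Pi.div_apply, id_eq, add_tsub_cancel_right]
  rw [pow_succ (r / (r ^ 2 + s)) k]
  generalize (r / (r ^ 2 + s)) ^ k = q
  field_simp
  ring

/-- The derivative of the kernel in the scale. -/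
theorem hasDerivAt_kprof_scale (hn : 2 ≤ n) {r s : ℝ} (hr : 0 < r) (hs : 0 ≤ s) :
    HasDerivAt (fun x => kprof n x s)
      (md n * kprof n r s * (s - r ^ 2) / ((r ^ 2 + s) * r)) r := by
  have h0 : r ^ 2 + s ≠ 0 := (by positivity : 0 < r ^ 2 + s).ne'
  have h := ((hasDerivAt_id r).div ((hasDerivAt_pow 2 r).add_const s) h0).pow (n - 1)
  refine h.congr_deriv ?_
  rw [md_eq_cast (one_le_two.trans hn), kprof]
  obtain ⟨k, hk⟩ : ∃ k, n - 1 = k + 1 := ⟨n - 2, by omega⟩
  simp only [hk, Pi.div_apply, id_eq, add_tsub_cancel_right]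
  rw [pow_succ (r / (r ^ 2 + s)) k]
  generalize (r / (r ^ 2 + s)) ^ k = q
  field_simp
  ring

/-- A continuous extension of `kern n u d / u`, valid for `ε ≤ u`. -/
def wk (n : ℕ) (ε u d : ℝ) : ℝ := u ^ (n - 2) / ((max u ε) ^ 2 + d ^ 2) ^ (n - 1)

theorem continuous_wk (n : ℕ) {ε : ℝ} (hε : 0 < ε) :
    Continuous fun q : ℝ × ℝ => wk n ε q.1 q.2 := by
  refine (continuous_fst.pow _).div₀ ((((continuous_fst.max continuous_const).pow 2).add
    (continuous_snd.pow 2)).pow _) fun q => pow_ne_zero _ (ne_of_gt ?_)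
  have : 0 < max q.1 ε := lt_max_of_lt_right hε
  positivity

theorem wk_eq (hn : 2 ≤ n) {ε u : ℝ} (hu : 0 < u) (h : ε ≤ u) (d : ℝ) :
    wk n ε u d = kern n u d / u := by
  obtain ⟨k, hk⟩ : ∃ k, n = k + 2 := ⟨n - 2, by omega⟩
  subst hk
  rw [wk, max_eq_left h, kern, div_pow, show k + 2 - 1 = k + 1 by omega, Nat.add_sub_cancel,
    pow_succ u]
  field_simp
  ring

/-- The part of the potential between two scales. -/
def radE (n : ℕ) (ε r d : ℝ) : ℝ := d * ∫ u in ε..r, wk n ε u d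

theorem continuous_radE (n : ℕ) {ε : ℝ} (hε : 0 < ε) (r : ℝ) : Continuous (radE n ε r) := by
  refine continuous_id.mul (intervalIntegral.continuous_parametric_intervalIntegral_of_continuous'
    (f := fun d u => wk n ε u d) ?_ ε r)
  exact (continuous_wk n hε).comp (continuous_snd.prodMk continuous_fst)

theorem hasDerivAt_radE (n : ℕ) {ε : ℝ} (hε : 0 < ε) (d r : ℝ) :
    HasDerivAt (fun x => radE n ε x d) (d * wk n ε r d) r :=
  ((((continuous_wk n hε).comp (Continuous.prodMk_left d)).integral_hasStrictDerivAt ε r).hasDerivAt).const_mul d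

theorem radE_le_rad (hn : 2 ≤ n) {ε ρ d : ℝ} (hε : 0 < ε) (hρ : ε ≤ ρ) (hd : 0 ≤ d) :
    radE n ε ρ d ≤ rad n ρ d := by
  rcases eq_or_lt_of_le hd with rfl | hd
  · simp [radE, rad]
  refine mul_le_mul_of_nonneg_left ?_ hd.le
  have hc : Continuous fun u : ℝ => u ^ (n - 2) / (u ^ 2 + d ^ 2) ^ (n - 1) :=
    (continuous_id.pow _).div₀ (((continuous_id.pow 2).add continuous_const).pow _) fun u =>
      pow_ne_zero _ (ne_of_gt (by positivity))
  calc ∫ u in ε..ρ, wk n ε u d = ∫ u in ε..ρ, u ^ (n - 2) / (u ^ 2 + d ^ 2) ^ (n - 1) :=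
        intervalIntegral.integral_congr fun u hu => by
          rw [uIcc_of_le hρ] at hu
          simp only [wk, max_eq_left hu.1]
    _ ≤ ∫ u in (0 : ℝ)..ρ, u ^ (n - 2) / (u ^ 2 + d ^ 2) ^ (n - 1) :=
        intervalIntegral.integral_mono_interval hε.le hρ le_rfl
          (ae_restrict_of_forall_mem measurableSet_Ioc fun u hu =>
            div_nonneg (pow_nonneg hu.1.le _) (by positivity))
          (hc.intervalIntegrable _ _)

/-- The kernel average at scale `r`. -/
def kint (D : Varifold G h₀) (Γ : Geo G) (y : E n) (g : E n → ℝ) (r : ℝ) : ℝ :=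
  ∫ p, kern n r (Γ.dist y p.1) * g p.1 ∂D.μ

theorem continuous_kern_dist (hG : IsMetric G) (Γ : Geo G) (y : E n) {r : ℝ} (hr : 0 < r) :
    Continuous fun p : E n × E n => kern n r (Γ.dist y p.1) := by
  refine (continuous_const.div₀ (continuous_const.add
    (((continuous_dist_right hG Γ y).comp continuous_fst).pow 2)) fun p => ne_of_gt ?_).pow _
  simp only [Pi.pow_apply, Pi.add_apply, Function.comp_apply]
  positivity

theorem continuous_src (hG : IsMetric G) {g : E n → ℝ} (hg : ContDiff ℝ 1 g) :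
    Continuous fun p : E n × E n => h₀ * g p.1 + Real.sqrt (tgsq G g p) :=
  (continuous_const.mul (hg.continuous.comp continuous_fst)).add (continuous_tgsq hG hg).sqrt

theorem src_eq_zero {g : E n → ℝ} {p : E n × E n} (hp : p.1 ∉ tsupport g) :
    h₀ * g p.1 + Real.sqrt (tgsq G g p) = 0 := by
  simp [image_eq_zero_of_notMem_tsupport hp, tgsq_eq_zero hp]

theorem hasDerivAt_kint (hn : 2 ≤ n) (hG : IsMetric G) (D : Varifold G h₀) (y : E n)
    {g : E n → ℝ} (hg : ContDiff ℝ 1 g) (hgs : HasCompactSupport g) {r : ℝ} (hr : 0 < r) :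
    HasDerivAt (kint D Γ y g)
      (∫ p, md n * kprof n r (sqd Γ y p.1) * (sqd Γ y p.1 - r ^ 2) /
        ((r ^ 2 + sqd Γ y p.1) * r) * g p.1 ∂D.μ) r := by
  have hρ : Continuous fun q : ℝ × (E n × E n) => sqd Γ y q.2.1 :=
    (contDiff_sqd hG Γ y).continuous.comp (continuous_fst.comp continuous_snd)
  refine hasDerivAt_integral_supp hG D (F := fun x p => kern n x (Γ.dist y p.1) * g p.1)
    (F' := fun x p => md n * kprof n x (sqd Γ y p.1) * (sqd Γ y p.1 - x ^ 2) /
      ((x ^ 2 + sqd Γ y p.1) * x) * g p.1)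
    (a := r / 2) (b := 2 * r) ⟨by linarith, by linarith⟩ ?_ ?_ hgs ?_ ?_ ?_
  · exact fun x hx => (continuous_kern_dist hG Γ y (lt_trans (by linarith) hx.1)).mul
      (hg.continuous.comp continuous_fst)
  · have hne : ∀ q ∈ Icc (r / 2) (2 * r) ×ˢ (univ : Set (E n × E n)),
        q.1 ≠ 0 ∧ q.1 ^ 2 + sqd Γ y q.2.1 ≠ 0 := fun q hq => by
      have h1 : 0 < q.1 := lt_of_lt_of_le (by linarith) hq.1.1
      have h2 : 0 ≤ sqd Γ y q.2.1 := hG.nonneg y _
      exact ⟨h1.ne', (by positivity : 0 < q.1 ^ 2 + sqd Γ y q.2.1).ne'⟩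
    have hk : ContinuousOn (fun q : ℝ × (E n × E n) => kprof n q.1 (sqd Γ y q.2.1))
        (Icc (r / 2) (2 * r) ×ˢ univ) :=
      (continuous_fst.continuousOn.div ((continuous_fst.pow 2).add hρ).continuousOn
        fun q hq => (hne q hq).2).pow _
    exact (((continuousOn_const.mul hk).mul
      (hρ.sub (continuous_fst.pow 2)).continuousOn).div
        (((continuous_fst.pow 2).add hρ).mul continuous_fst).continuousOn
        fun q hq => mul_ne_zero (hne q hq).2 (hne q hq).1).mul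
      ((hg.continuous.comp (continuous_fst.comp continuous_snd))).continuousOn
  · exact fun x _ p hp => by simp [image_eq_zero_of_notMem_tsupport hp]
  · exact fun x _ p hp => by simp [image_eq_zero_of_notMem_tsupport hp]
  · intro x hx p
    have hx0 : 0 < x := lt_trans (by linarith) hx.1
    simp only [kern_eq_kprof, dist_sq hG Γ y p.1]
    exact (hasDerivAt_kprof_scale hn hx0 (hG.nonneg y _)).mul_const _

theorem kint_variation (hn : 2 ≤ n) (hG : IsMetric G) (D : Varifold G h₀) (y : E n)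
    {g : E n → ℝ} (hg : ContDiff ℝ 1 g) (hgs : HasCompactSupport g) (hg0 : ∀ x, 0 ≤ g x)
    {r : ℝ} (hr : 0 < r) :
    0 ≤ (∫ p, md n * kprof n r (sqd Γ y p.1) * (sqd Γ y p.1 - r ^ 2) /
          ((r ^ 2 + sqd Γ y p.1) * r) * g p.1 ∂D.μ) +
        ∫ p, Γ.dist y p.1 * (kern n r (Γ.dist y p.1) / r) *
          (h₀ * g p.1 + Real.sqrt (tgsq G g p)) ∂D.μ := by
  have h := radial_variation (Γ := Γ) hG D y isOpen_Ioi
    (fun s (hs : (0 : ℝ) ≤ s) => show -r ^ 2 < s by nlinarith) (contDiffOn_kprof n hr)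
    (fun s hs => kprof_nonneg n hr hs)
    (fun s hs => by
      rw [(hasDerivAt_kprof hn hr hs).deriv]
      have := kprof_nonneg n hr hs
      have := md_eq_cast (one_le_two.trans hn)
      exact neg_nonpos.2 (div_nonneg (mul_nonneg (by rw [this]; positivity) ‹_›) (by positivity)))
    hg hg0 hgs fun z hz => Or.inl (image_eq_zero_of_notMem_tsupport hz)
  have e1 : (∫ p, md n * kprof n r (sqd Γ y p.1) * (sqd Γ y p.1 - r ^ 2) /
      ((r ^ 2 + sqd Γ y p.1) * r) * g p.1 ∂D.μ) = -(1 / r) * ∫ p, g p.1 *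
        (md n * kprof n r (sqd Γ y p.1) +
          2 * deriv (kprof n r) (sqd Γ y p.1) * sqd Γ y p.1) ∂D.μ := by
    rw [← integral_const_mul]
    refine integral_congr_ae (ae_of_all _ fun p => ?_)
    have hs : 0 ≤ sqd Γ y p.1 := hG.nonneg y _
    have : r ^ 2 + sqd Γ y p.1 ≠ 0 := (by positivity : 0 < r ^ 2 + sqd Γ y p.1).ne'
    simp only [(hasDerivAt_kprof hn hr hs).deriv]
    field_simp
    ring
  have e2 : (∫ p, Γ.dist y p.1 * (kern n r (Γ.dist y p.1) / r) *
      (h₀ * g p.1 + Real.sqrt (tgsq G g p)) ∂D.μ) = (1 / r) * ∫ p, kprof n r (sqd Γ y p.1) *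
        Γ.dist y p.1 * (h₀ * g p.1 + Real.sqrt (tgsq G g p)) ∂D.μ := by
    rw [← integral_const_mul]
    refine integral_congr_ae (ae_of_all _ fun p => ?_)
    simp only [kern_eq_kprof, dist_sq hG Γ y p.1]
    ring
  rw [e1, e2]
  nlinarith [mul_le_mul_of_nonneg_left h (by positivity : 0 ≤ 1 / r)]

/-- The monotonicity between two scales. -/
theorem kint_le (hn : 2 ≤ n) (hG : IsMetric G) (D : Varifold G h₀) (y : E n)
    {g : E n → ℝ} (hg : ContDiff ℝ 1 g) (hgs : HasCompactSupport g) (hg0 : ∀ x, 0 ≤ g x)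
    {ε ρ : ℝ} (hε : 0 < ε) (hρ : ε ≤ ρ)
    (hint : Integrable (fun q => rad n ρ (Γ.dist y q.1) *
      (h₀ * g q.1 + Real.sqrt (tgsq G g q))) D.μ) :
    kint D Γ y g ε ≤ kint D Γ y g ρ +
      ∫ q, rad n ρ (Γ.dist y q.1) * (h₀ * g q.1 + Real.sqrt (tgsq G g q)) ∂D.μ := by
  have hd0 : ∀ p : E n × E n, 0 ≤ Γ.dist y p.1 := fun p => Real.sqrt_nonneg _
  have hF : Continuous fun p : E n × E n => h₀ * g p.1 + Real.sqrt (tgsq G g p) :=
    continuous_src hG hg
  have hdc : Continuous fun p : E n × E n => Γ.dist y p.1 :=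
    (continuous_dist_right hG Γ y).comp continuous_fst
  set W : ℝ → ℝ := fun r => ∫ p, radE n ε r (Γ.dist y p.1) *
      (h₀ * g p.1 + Real.sqrt (tgsq G g p)) ∂D.μ with hW
  have hWd : ∀ r, HasDerivAt W (∫ p, Γ.dist y p.1 * wk n ε r (Γ.dist y p.1) *
      (h₀ * g p.1 + Real.sqrt (tgsq G g p)) ∂D.μ) r := fun r => by
    refine hasDerivAt_integral_supp hG D
      (F := fun x p => radE n ε x (Γ.dist y p.1) * (h₀ * g p.1 + Real.sqrt (tgsq G g p)))
      (F' := fun x p => Γ.dist y p.1 * wk n ε x (Γ.dist y p.1) *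
        (h₀ * g p.1 + Real.sqrt (tgsq G g p)))
      (a := r - 1) (b := r + 1) ⟨by linarith, by linarith⟩ ?_ ?_ hgs ?_ ?_ ?_
    · exact fun x _ => ((continuous_radE n hε x).comp hdc).mul hF
    · exact (((hdc.comp continuous_snd).mul ((continuous_wk n hε).comp
        (continuous_fst.prodMk (hdc.comp continuous_snd)))).mul
          (hF.comp continuous_snd)).continuousOn
    · exact fun x _ p hp => by simp [src_eq_zero hp]
    · exact fun x _ p hp => by simp [src_eq_zero hp]
    · exact fun x _ p => (hasDerivAt_radE n hε _ x).mul_const _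
  have hKd : ∀ r, 0 < r → HasDerivAt (fun r => kint D Γ y g r + W r) _ r := fun r hr =>
    (hasDerivAt_kint hn hG D y hg hgs hr).add (hWd r)
  have hmono : MonotoneOn (fun r => kint D Γ y g r + W r) (Icc ε ρ) := by
    refine monotoneOn_of_deriv_nonneg (convex_Icc _ _)
      (fun r hr => (hKd r (hε.trans_le hr.1)).continuousAt.continuousWithinAt) ?_ ?_ <;>
      rw [interior_Icc]
    · exact fun r hr => (hKd r (hε.trans hr.1)).differentiableAt.differentiableWithinAt
    · intro r hr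
      rw [(hKd r (hε.trans hr.1)).deriv]
      simp only [wk_eq hn (hε.trans hr.1) hr.1.le]
      exact kint_variation hn hG D y hg hgs hg0 (hε.trans hr.1)
  have h := hmono (left_mem_Icc.2 hρ) (right_mem_Icc.2 hρ) hρ
  have hW0 : W ε = 0 := by simp [hW, radE]
  simp only [hW0, add_zero] at h
  refine h.trans (add_le_add_right ?_ _)
  refine integral_mono_ae (D.integrable_of_supp hG (((continuous_radE n hε ρ).comp hdc).mul hF)
    hgs fun p hp => by simp [src_eq_zero hp]) hint ?_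
  filter_upwards [D.unit] with p hp
  refine mul_le_mul_of_nonneg_right (radE_le_rad hn hε hρ (hd0 p)) ?_
  have : 0 ≤ h₀ := (abs_nonneg _).trans (D.h_le y)
  exact add_nonneg (mul_nonneg this (hg0 _)) (Real.sqrt_nonneg _)

end

end Vale.Agent.P219.CH.Full.Mono
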