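import Vale.Agent.P219.CH.Full.Mono.Kernel

/-!
P219, the monotonicity module: density at a point bounds the kernel average from below.
-/

namespace Vale.Agent.P219.CH.Full.Mono

open MeasureTheory Filter Topology Set Metric
open scoped ContDiff RealInnerProductSpace ENNReal

noncomputable section

/-- Comparison of radial integrals through the measure of balls. -/
theorem lintegral_radial_le {α : Type*} [MeasurableSpace α] (μ : Measure α) [IsFiniteMeasure μ]
    {m : ℕ} {δ : α → ℝ} (hδ : Measurable δ) (hδ0 : ∀ a, 0 ≤ δ a) {r₀ θ : ℝ} (hθ : 0 ≤ θ)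
    {f : ℝ → ℝ} (hfc : ContinuousOn f (Ici 0)) (hfa : AntitoneOn f (Ici 0))
    (hf0 : ∀ s, 0 ≤ s → 0 ≤ f s) (hfz : ∀ s, r₀ ≤ s → f s ≤ 0)
    (hdens : ∀ s, 0 < s → s ≤ r₀ → θ * omega m * s ^ m ≤ μ.real {a | δ a ≤ s}) :
    ENNReal.ofReal θ * ∫⁻ x : E m, ENNReal.ofReal (f ‖x‖) ≤ ∫⁻ a, ENNReal.ofReal (f (δ a)) ∂μ := by
  have hm1 : Measurable fun x : E m => f ‖x‖ :=
    (hfc.comp_continuous continuous_norm fun x => mem_Ici.2 (norm_nonneg x)).measurable
  have hm2 : Measurable fun a => f (δ a) := by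
    have : Continuous fun s => f (max s 0) :=
      hfc.comp_continuous (continuous_id.max continuous_const) fun s =>
        mem_Ici.2 (le_max_right _ _)
    simpa [max_eq_left (hδ0 _), Function.comp_def] using this.measurable.comp hδ
  rw [lintegral_eq_lintegral_meas_lt volume (ae_of_all _ fun x => hf0 _ (norm_nonneg x))
      hm1.aemeasurable,
    lintegral_eq_lintegral_meas_lt μ (ae_of_all _ fun a => hf0 _ (hδ0 a)) hm2.aemeasurable,
    ← lintegral_const_mul' _ _ ENNReal.ofReal_ne_top]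
  refine lintegral_mono_ae ?_
  filter_upwards [ae_restrict_mem measurableSet_Ioi] with t (ht : 0 < t)
  set S : Set ℝ := {s | 0 ≤ s ∧ t < f s} with hS
  rcases S.eq_empty_or_nonempty with hE | hne
  · have : {x : E m | t < f ‖x‖} = ∅ := eq_empty_iff_forall_notMem.2 fun x hx =>
      notMem_empty ‖x‖ (hE ▸ (⟨norm_nonneg x, hx⟩ : ‖x‖ ∈ S))
    simp [this]
  have hbd : BddAbove S := ⟨r₀, fun s hs => le_of_lt (lt_of_not_ge fun h => by
    linarith [hfz s h, hs.2])⟩
  set T := sSup S with hT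
  have hT0 : 0 ≤ T := by obtain ⟨s, hs⟩ := hne; exact hs.1.trans (le_csSup hbd hs)
  have hTr : T ≤ r₀ := csSup_le hne fun s hs => le_of_lt (lt_of_not_ge fun h => by
    linarith [hfz s h, hs.2])
  have h1 : volume {x : E m | t < f ‖x‖} ≤ ENNReal.ofReal (omega m * T ^ m) := by
    refine (measure_mono fun x (hx : t < f ‖x‖) => show x ∈ closedBall (0 : E m) T from
      mem_closedBall_zero_iff.2 (le_csSup hbd ⟨norm_nonneg x, hx⟩)).trans (le_of_eq ?_)
    rw [Measure.addHaar_closedBall volume (0 : E m) hT0, finrank_euclideanSpace_fin, omega,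
      ENNReal.ofReal_mul ENNReal.toReal_nonneg, ENNReal.ofReal_toReal measure_ball_lt_top.ne,
      mul_comm]
  have key : ∀ s, 0 < s → s < T →
      ENNReal.ofReal (θ * omega m * s ^ m) ≤ μ {a | t < f (δ a)} := by
    intro s hs hsT
    obtain ⟨s', hs', hss⟩ := exists_lt_of_lt_csSup hne hsT
    calc ENNReal.ofReal (θ * omega m * s ^ m) ≤ μ {a | δ a ≤ s} := by
          rw [← ENNReal.ofReal_toReal (measure_ne_top μ _)]
          exact ENNReal.ofReal_le_ofReal (hdens s hs (hsT.le.trans hTr))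
      _ ≤ _ := measure_mono fun a (ha : δ a ≤ s) =>
          lt_of_lt_of_le hs'.2 (hfa (hδ0 a) hs'.1 (ha.trans hss.le))
  calc ENNReal.ofReal θ * volume {x : E m | t < f ‖x‖}
      ≤ ENNReal.ofReal θ * ENNReal.ofReal (omega m * T ^ m) := mul_le_mul' le_rfl h1
    _ = ENNReal.ofReal (θ * omega m * T ^ m) := by rw [← ENNReal.ofReal_mul hθ, mul_assoc]
    _ ≤ μ {a | t < f (δ a)} := by
        rcases eq_or_lt_of_le hT0 with h0 | h0
        · rcases Nat.eq_zero_or_pos m with hm | hm
          · obtain ⟨s, hs⟩ := hne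
            have hs0 : s = 0 := le_antisymm ((le_csSup hbd hs).trans h0.symm.le) hs.1
            subst hm
            have hr : 0 < r₀ := lt_of_not_ge fun h => by linarith [hfz 0 h, hs0 ▸ hs.2]
            have hcont : ∀ᶠ s' in 𝓝[>] (0 : ℝ), t < f s' := by
              have := ((hfc 0 self_mem_Ici).mono Ioi_subset_Ici_self).eventually_const_lt
                (hs0 ▸ hs.2)
              exact this
            obtain ⟨s', hs', hs'0⟩ := (hcont.and self_mem_nhdsWithin).exists
            have h' : (0 : ℝ) < s' := hs'0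
            have hs'T : s' ≤ T := le_csSup hbd ⟨h'.le, hs'⟩
            linarith
          · simp [← h0, hm.ne']
        · refine le_of_tendsto (x := 𝓝[<] T)
            ((ENNReal.continuous_ofReal.tendsto _).comp
              ((by fun_prop : Continuous fun s => θ * omega m * s ^ m).tendsto T |>.mono_left
                nhdsWithin_le_nhds)) ?_
          filter_upwards [Ioo_mem_nhdsLT h0] with s hs
          exact key s hs.1 hs.2

variable {n : ℕ} {G : Coeff n} {Γ : Geo G} {h₀ : ℝ}

theorem kern_le_of_le (n : ℕ) {r s t : ℝ} (hr : 0 < r) (hs : 0 ≤ s) (h : s ≤ t) :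
    kern n r t ≤ kern n r s := by
  refine pow_le_pow_left₀ (div_nonneg hr.le (by positivity)) ?_ _
  exact div_le_div_of_nonneg_left hr.le (by positivity) (by nlinarith)

theorem kern_nonneg (n : ℕ) {r : ℝ} (hr : 0 < r) (d : ℝ) : 0 ≤ kern n r d :=
  pow_nonneg (div_nonneg hr.le (by positivity)) _

theorem continuous_kern (n : ℕ) {r : ℝ} (hr : 0 < r) : Continuous (kern n r) :=
  (continuous_const.div₀ (continuous_const.add (continuous_id.pow 2)) fun d =>
    ne_of_gt (show 0 < r ^ 2 + d ^ 2 by positivity)).pow _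

/-- Small balls lie where a continuous function is large. -/
theorem exists_ball_gt (hG : IsMetric G) (Γ : Geo G) (x : E n) {g : E n → ℝ} (hg : Continuous g)
    {a : ℝ} (ha : a < g x) : ∃ r₀, 0 < r₀ ∧ ∀ y, Γ.dist x y ≤ r₀ → a ≤ g y := by
  have h0 : (Γ.flow 1 (x, (0 : E n))).1 = x := by
    have h := Γ.flow_scale 0 1 x 0
    simp [Γ.flow_zero] at h
    simp [h]
  have hc : Continuous fun v : E n => g (Γ.flow 1 (x, v)).1 :=
    hg.comp (continuous_fst.comp (Γ.flow_c1.continuous.comp
      (continuous_const.prodMk (continuous_const.prodMk continuous_id))))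
  have hmem : {v : E n | a < g (Γ.flow 1 (x, v)).1} ∈ 𝓝 (0 : E n) :=
    (isOpen_Ioi.preimage hc).mem_nhds (by simpa [h0] using ha)
  obtain ⟨η, hη, hball⟩ := Metric.mem_nhds_iff.1 hmem
  obtain ⟨c, hc0, hcv⟩ := Core.Mini.exists_euclid_bound hG x
  refine ⟨c * η / 2, by positivity, fun y hy => ?_⟩
  have hv : ‖Γ.logm x y‖ < η := by
    have : c * ‖Γ.logm x y‖ ≤ c * η / 2 := (hcv _).trans hy
    nlinarith
  have := hball (mem_ball_zero_iff.2 hv)
  rw [mem_setOf_eq, Γ.exp_logm] at this
  exact this.le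

/-- The stereographic weight. -/
def wst (m : ℕ) (x : E m) : ℝ := (1 / (1 + ‖x‖ ^ 2)) ^ m

/-- The lower bound at one scale. -/
theorem kint_ge (hG : IsMetric G) (D : Varifold G h₀) (x : E n) {g : E n → ℝ}
    (hg : ContDiff ℝ 1 g) (hgs : HasCompactSupport g) (hg0 : ∀ y, 0 ≤ g y)
    (hw : Integrable (wst (n - 1))) {a r₀ θ : ℝ} (ha : 0 ≤ a) (hr₀ : 0 < r₀) (hθ : 0 ≤ θ)
    (hga : ∀ y, Γ.dist x y ≤ r₀ → a ≤ g y)
    (hdens : ∀ s, 0 < s → s ≤ r₀ →
      θ * omega (n - 1) * s ^ (n - 1) ≤ D.μ.real {p | Γ.dist x p.1 ≤ s})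
    {ε : ℝ} (hε : 0 < ε) :
    a * θ * ∫ y : E (n - 1), max (wst (n - 1) y - (1 / (1 + (r₀ / ε) ^ 2)) ^ (n - 1)) 0 ≤
      kint D Γ x g ε := by
  set f : ℝ → ℝ := fun s => max (kern n ε s - kern n ε r₀) 0 with hf
  have hfc : Continuous f := ((continuous_kern n hε).sub continuous_const).max continuous_const
  have hdc : Continuous fun p : E n × E n => Γ.dist x p.1 :=
    (continuous_dist_right hG Γ x).comp continuous_fst
  have hL := lintegral_radial_le D.μ (δ := fun p => Γ.dist x p.1) hdc.measurable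
    (fun p => Real.sqrt_nonneg _) hθ (f := f) (m := n - 1) (r₀ := r₀) hfc.continuousOn
    (fun s hs t _ hst => max_le_max (sub_le_sub_right (kern_le_of_le n hε hs hst) _) le_rfl)
    (fun s _ => le_max_right _ _)
    (fun s hs => max_le (sub_nonpos.2 (kern_le_of_le n hε hr₀.le hs)) le_rfl) hdens
  have hi2 : Integrable (fun p : E n × E n => f (Γ.dist x p.1)) D.μ := by
    refine Integrable.of_bound (hfc.comp hdc).aestronglyMeasurable (kern n ε 0)
      (ae_of_all _ fun p => ?_)
    rw [Real.norm_of_nonneg (le_max_right _ _)]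
    refine max_le ?_ (kern_nonneg n hε 0)
    have := kern_le_of_le n hε le_rfl (show (0 : ℝ) ≤ Γ.dist x p.1 from Real.sqrt_nonneg _)
    linarith [kern_nonneg n hε r₀]
  set H : E (n - 1) → ℝ := fun y =>
    max (wst (n - 1) y - (1 / (1 + (r₀ / ε) ^ 2)) ^ (n - 1)) 0 with hH
  have hHi : Integrable H := by
    refine hw.mono' ((?_ : Continuous H).aestronglyMeasurable) (ae_of_all _ fun y => ?_)
    · exact (((continuous_const.div₀ (continuous_const.add (continuous_norm.pow 2)) fun y =>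
        ne_of_gt (show (0 : ℝ) < 1 + ‖y‖ ^ 2 by positivity)).pow _).sub
          continuous_const).max continuous_const
    · rw [Real.norm_of_nonneg (le_max_right _ _)]
      exact max_le (sub_le_self _ (by positivity)) (by rw [wst]; positivity)
  have hscale : ∀ y : E (n - 1), f ‖y‖ = (ε ^ (n - 1))⁻¹ * H (ε⁻¹ • y) := by
    intro y
    have e : ∀ s : ℝ, kern n ε s = (ε ^ (n - 1))⁻¹ * (1 / (1 + (s / ε) ^ 2)) ^ (n - 1) := fun s => by
      rw [kern, ← inv_pow, ← mul_pow]
      congr 1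
      field_simp
    simp only [hH, hf, wst, norm_smul, norm_inv, Real.norm_of_nonneg hε.le]
    rw [mul_max_of_nonneg _ _ (by positivity), mul_zero, mul_sub, e, e, inv_mul_eq_div ε ‖y‖]
  have hi1 : Integrable (fun y : E (n - 1) => f ‖y‖) := by
    simp only [hscale]
    exact (hHi.comp_smul (inv_ne_zero hε.ne')).const_mul _
  have hval : ∫ y : E (n - 1), f ‖y‖ = ∫ y, H y := by
    simp only [hscale]
    rw [integral_const_mul, Measure.integral_comp_inv_smul_of_nonneg volume H hε.le,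
      finrank_euclideanSpace_fin, smul_eq_mul, ← mul_assoc,
      inv_mul_cancel₀ (pow_ne_zero _ hε.ne'), one_mul]
  have hfnn : ∀ s, 0 ≤ f s := fun s => le_max_right _ _
  have hI2 : 0 ≤ ∫ p, f (Γ.dist x p.1) ∂D.μ := integral_nonneg fun p => hfnn _
  rw [← ofReal_integral_eq_lintegral_ofReal hi1 (ae_of_all _ fun y => hfnn _),
    ← ofReal_integral_eq_lintegral_ofReal hi2 (ae_of_all _ fun y => hfnn _),
    ← ENNReal.ofReal_mul hθ, ENNReal.ofReal_le_ofReal_iff hI2, hval] at hL
  have hkg : Integrable (fun p : E n × E n => kern n ε (Γ.dist x p.1) * g p.1) D.μ :=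
    D.integrable_of_supp hG ((continuous_kern_dist hG Γ x hε).mul
      (hg.continuous.comp continuous_fst)) hgs
      fun p hp => by simp [image_eq_zero_of_notMem_tsupport hp]
  calc a * θ * ∫ y, H y = a * (θ * ∫ y, H y) := mul_assoc _ _ _
    _ ≤ a * ∫ p, f (Γ.dist x p.1) ∂D.μ := mul_le_mul_of_nonneg_left hL ha
    _ = ∫ p, a * f (Γ.dist x p.1) ∂D.μ := (integral_const_mul _ _).symm
    _ ≤ kint D Γ x g ε := by
        refine integral_mono (hi2.const_mul a) hkg fun p => ?_
        rcases le_or_gt (Γ.dist x p.1) r₀ with h | h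
        · have h1 := hga p.1 h
          have h2 : f (Γ.dist x p.1) ≤ kern n ε (Γ.dist x p.1) :=
            max_le (sub_le_self _ (kern_nonneg n hε r₀)) (kern_nonneg n hε _)
          nlinarith [le_max_right (kern n ε (Γ.dist x p.1) - kern n ε r₀) 0,
            kern_nonneg n hε (Γ.dist x p.1)]
        · have : f (Γ.dist x p.1) = 0 :=
            max_eq_right (sub_nonpos.2 (kern_le_of_le n hε hr₀.le h.le))
          simp only [this, mul_zero]
          exact mul_nonneg (kern_nonneg n hε _) (hg0 _)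

/-- Passing to the limit of small scales. -/
theorem wst_le_of_kint (hn : 2 ≤ n) (hG : IsMetric G) (D : Varifold G h₀) (x : E n) {g : E n → ℝ}
    (hg : ContDiff ℝ 1 g) (hgs : HasCompactSupport g) (hg0 : ∀ y, 0 ≤ g y)
    (hw : Integrable (wst (n - 1)))
    (hdens : ∀ θ < 1, ∀ᶠ r in 𝓝[>] (0 : ℝ),
      θ * omega (n - 1) * r ^ (n - 1) ≤ D.μ.real {p | Γ.dist x p.1 ≤ r})
    {B : ℝ} (hB : ∀ᶠ ε in 𝓝[>] (0 : ℝ), kint D Γ x g ε ≤ B) (hB0 : 0 ≤ B) :
    (∫ y, wst (n - 1) y) * g x ≤ B := by
  rcases eq_or_lt_of_le (hg0 x) with h0 | h0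
  · simpa [← h0] using hB0
  have key : ∀ t, 0 < t → t < 1 → t * g x * t * (∫ y, wst (n - 1) y) ≤ B := by
    intro t ht ht1
    obtain ⟨r₁, hr₁, hga⟩ := exists_ball_gt hG Γ x hg.continuous
      (show t * g x < g x by nlinarith)
    obtain ⟨δ, hδ, hd⟩ := mem_nhdsGT_iff_exists_Ioc_subset.1 (hdens t ht1)
    have hr : 0 < min r₁ δ := lt_min hr₁ hδ
    set r₀ := min r₁ δ with hr₀def
    have hlim : Tendsto (fun ε : ℝ => ∫ y : E (n - 1),
        max (wst (n - 1) y - (1 / (1 + (r₀ / ε) ^ 2)) ^ (n - 1)) 0) (𝓝[>] 0)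
        (𝓝 (∫ y, wst (n - 1) y)) := by
      have hc : Tendsto (fun ε : ℝ => (1 / (1 + (r₀ / ε) ^ 2)) ^ (n - 1)) (𝓝[>] 0) (𝓝 0) := by
        have h1 : Tendsto (fun ε : ℝ => 1 + (r₀ / ε) ^ 2) (𝓝[>] 0) atTop :=
          tendsto_atTop_add_const_left _ _ ((tendsto_pow_atTop two_ne_zero).comp
            (tendsto_inv_nhdsGT_zero.const_mul_atTop hr))
        have h2 : Tendsto (fun ε : ℝ => 1 / (1 + (r₀ / ε) ^ 2)) (𝓝[>] 0) (𝓝 0) :=
          h1.const_div_atTop 1
        simpa [zero_pow (by omega : n - 1 ≠ 0)] using h2.pow (n - 1)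
      refine tendsto_integral_filter_of_dominated_convergence (wst (n - 1)) ?_ ?_ hw ?_
      · filter_upwards with ε
        exact (hw.aestronglyMeasurable.sub aestronglyMeasurable_const).sup
          aestronglyMeasurable_const
      · filter_upwards [self_mem_nhdsWithin] with ε (hε : 0 < ε)
        refine ae_of_all _ fun y => ?_
        rw [Real.norm_of_nonneg (le_max_right _ _)]
        exact max_le (sub_le_self _ (by positivity)) (by rw [wst]; positivity)
      · refine ae_of_all _ fun y => ?_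
        have := (((tendsto_const_nhds (x := wst (n - 1) y)).sub hc).max
          (tendsto_const_nhds (x := (0 : ℝ))))
        rwa [sub_zero, max_eq_left (by rw [wst]; positivity)] at this
    refine le_of_tendsto (hlim.const_mul (t * g x * t)) ?_
    filter_upwards [hB, self_mem_nhdsWithin] with ε hεB (hε : 0 < ε)
    exact (kint_ge hG D x hg hgs hg0 hw (by positivity) hr ht.le
      (fun y hy => hga y (hy.trans (min_le_left _ _)))
      (fun s hs hs' => hd ⟨hs, hs'.trans (min_le_right _ _)⟩) hε).trans hεB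
  refine le_of_tendsto (x := 𝓝[<] (1 : ℝ)) (f := fun t => t * g x * t * ∫ y, wst (n - 1) y) ?_ ?_
  · have h := ((by fun_prop : Continuous fun t : ℝ => t * g x * t * ∫ y, wst (n - 1) y).tendsto
      1).mono_left (nhdsWithin_le_nhds (s := Iio (1 : ℝ)))
    simpa [mul_comm] using h
  · filter_upwards [Ioo_mem_nhdsLT zero_lt_one] with t ht using key t ht.1 ht.2

end

end Vale.Agent.P219.CH.Full.Mono
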